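import Mathlib.Data.Matrix.Mul
import Mathlib.LinearAlgebra.Matrix.Notation
import Mathlib.Tactic.NoncommRing
import Mathlib.Tactic.FinCases
import Mathlib.Algebra.BigOperators.Fin

/-! P089: the algebra of the index idempotent. -/

namespace Vale.Agent.P089Z

section

variable {B : Type} [Ring B]

/-- The index idempotent of an operator `S` from the range of `p₀` to the range of `p₁` with
parametrix `Q`. -/
def indexIdem (p₀ p₁ S Q : B) : Matrix (Fin 2) (Fin 2) B :=
  !![(p₀ - Q * S) ^ 2, (p₀ - Q * S) * (p₀ + (p₀ - Q * S)) * Q;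
    S * (p₀ - Q * S), 1 - (p₁ - S * Q) ^ 2]

theorem indexIdem_idem {p₀ p₁ S Q : B} (h0 : p₀ * p₀ = p₀) (h1 : p₁ * p₁ = p₁)
    (hS0 : S * p₀ = S) (hS1 : p₁ * S = S) (hQ0 : p₀ * Q = Q) (hQ1 : Q * p₁ = Q) :
    indexIdem p₀ p₁ S Q * indexIdem p₀ p₁ S Q = indexIdem p₀ p₁ S Q := by
  obtain ⟨a, ha⟩ : ∃ a, a = p₀ - Q * S := ⟨_, rfl⟩
  obtain ⟨b, hb⟩ : ∃ b, b = p₁ - S * Q := ⟨_, rfl⟩
  have hQS : Q * S = p₀ - a := by rw [ha]; abel
  have hSQ : S * Q = p₁ - b := by rw [hb]; abel
  have e1 : S * a = b * S := by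
    rw [ha, hb, mul_sub, sub_mul, hS0, hS1, mul_assoc]
  have e2 : a * Q = Q * b := by
    rw [ha, hb, mul_sub, sub_mul, hQ0, hQ1, mul_assoc]
  have e3 : p₀ * a = a := by
    rw [ha, mul_sub, h0, ← mul_assoc, hQ0]
  have e4 : a * p₀ = a := by
    rw [ha, sub_mul, h0, mul_assoc, hS0]
  have e5 : p₁ * b = b := by
    rw [hb, mul_sub, h1, ← mul_assoc, hS1]
  have e6 : b * p₁ = b := by
    rw [hb, sub_mul, h1, mul_assoc, hQ1]
  have f1 : a * (p₀ + a) = a + a * a := by rw [mul_add, e4]
  unfold indexIdem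
  rw [← ha, ← hb, f1]
  ext i j
  fin_cases i <;> fin_cases j <;>
    simp only [Matrix.mul_apply, Fin.sum_univ_two, Matrix.of_apply, Matrix.cons_val', Matrix.cons_val_zero,
      Matrix.cons_val_one, Matrix.cons_val_fin_one, Fin.zero_eta, Fin.mk_one, Fin.isValue]
  · have g : (a + a * a) * Q * (S * a) = (a + a * a) * (Q * S) * a := by noncomm_ring
    have g2 : (a + a * a) * (p₀ - a) = a - a * a * a := by
      rw [mul_sub, add_mul, mul_assoc a a p₀, e4]; noncomm_ring
    rw [g, hQS, g2]
    noncomm_ring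
  · have g : Q * (b * b) = a * a * Q := by
      rw [← mul_assoc, ← e2, mul_assoc, ← e2, ← mul_assoc]
    have g2 : (a + a * a) * Q * (1 - b ^ 2) = (a + a * a) * Q - (a + a * a) * (Q * (b * b)) := by
      noncomm_ring
    rw [g2, g]
    noncomm_ring
  · have g : b * b * S = S * (a * a) := by
      rw [mul_assoc, ← e1, ← mul_assoc, ← e1, mul_assoc]
    have g2 : (1 - b ^ 2) * (S * a) = S * a - (b * b * S) * a := by noncomm_ring
    rw [g2, g]
    noncomm_ring
  · have g : S * a * ((a + a * a) * Q) = (S * a) * (a * Q) + (S * a) * a * (a * Q) := by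
      noncomm_ring
    have g1 : S * a * a = b * b * S := by
      rw [e1, mul_assoc, e1, ← mul_assoc]
    have g2 : S * a * ((a + a * a) * Q) = b * (S * Q) * b + b * b * (S * Q) * b := by
      rw [g, g1, e1, e2]
      noncomm_ring
    have g3 : b * (p₁ - b) = b - b * b := by rw [mul_sub, e6]
    rw [g2, hSQ, mul_assoc b b (p₁ - b), g3]
    noncomm_ring

/-- The defects of the compressed operator are in an ideal. `A` is a subring-like class and `I`
an ideal of it. -/
theorem defect_mem {A I : B → Prop} (hAm : ∀ x y, A x → A y → A (x * y))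
    (hIl : ∀ x y, A x → I y → I (x * y)) (hIr : ∀ x y, I x → A y → I (x * y))
    (hIs : ∀ x y, I x → I y → I (x - y)) {p F e e' : B} (hp : A p) (hF : A F) (he : A e)
    (hpp : p * p = p) (hee : e * e = e) (hee' : e' * e' = e') (hpe : p * e = e * p)
    (hpe' : p * e' = e' * p) (hFe : F * e = e' * F)
    (hc : I (p * F - F * p)) (hs : I (p * (F * F - 1))) :
    I (p * e - (p * e * F * (p * e')) * (p * e' * F * (p * e))) := by
  have h1 : e' * F * (p * e) = F * (p * e) := by
    rw [← hFe, hpe, mul_assoc, ← mul_assoc e e p, hee]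
  have h2 : (p * e') * (p * e') = p * e' := by
    rw [mul_assoc, ← mul_assoc e' p e', ← hpe', mul_assoc p e' e', hee', ← mul_assoc, hpp]
  have h3 : (p * e * F * (p * e')) * (p * e' * F * (p * e)) = p * e * F * p * F * (p * e) := by
    calc (p * e * F * (p * e')) * (p * e' * F * (p * e))
        = p * e * F * ((p * e') * (p * e')) * F * (p * e) := by noncomm_ring
      _ = p * e * F * p * (e' * F * (p * e)) := by rw [h2]; noncomm_ring
      _ = p * e * F * p * F * (p * e) := by rw [h1]; noncomm_ring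
  have h4 : p * e * (p * e) = p * e := by
    rw [mul_assoc, ← mul_assoc e p e, ← hpe, mul_assoc p e e, hee, ← mul_assoc, hpp]
  have h5 : p * e - p * e * F * p * F * (p * e) =
      (p * e) * (p * F - F * p) * (F * (p * e)) - e * (p * (F * F - 1)) * (p * e) := by
    have h6 : p * e * p = p * e := by rw [mul_assoc, ← hpe, ← mul_assoc, hpp]
    have h7 : e * p * (p * e) = p * e := by rw [← hpe, h4]
    calc p * e - p * e * F * p * F * (p * e)
        = e * p * (p * e) - p * e * F * p * F * (p * e) +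
            (p * e * p * F * F * (p * e) - e * p * F * F * (p * e)) := by
          rw [h7, h6, ← hpe, sub_self, add_zero]
      _ = _ := by noncomm_ring
  have hpe0 : A (p * e) := hAm _ _ hp he
  rw [h3, h5]
  exact hIs _ _ (hIr _ _ (hIl _ _ hpe0 hc) (hAm _ _ hF hpe0)) (hIr _ _ (hIl _ _ he hs) hpe0)

end

end Vale.Agent.P089Z
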