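import Vale.Agent.P089Z.Defs
import Mathlib.Topology.UrysohnsLemma
import Mathlib.Topology.Algebra.Monoid
import Mathlib.Topology.UniformSpace.OfCompactT2
import Mathlib.Topology.ContinuousMap.CompactlySupported

/-! P089: existence of cutoff functions. -/

namespace Vale.Agent.P089Z

open scoped ZeroAtInfty

variable {G X : Type} [Group G] [TopologicalSpace X] [MulAction G X] [ContinuousConstSMul G X]

theorem exists_compact_cover [LocallyCompactSpace X]
    [CompactSpace (MulAction.orbitRel.Quotient G X)] :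
    ∃ K : Set X, IsCompact K ∧ ∀ x, ∃ g : G, g⁻¹ • x ∈ K := by
  classical
  let _ := MulAction.orbitRel G X
  choose N hN hN' using fun x : X => exists_compact_mem_nhds x
  have hcov : (Set.univ : Set (MulAction.orbitRel.Quotient G X)) ⊆
      ⋃ x : X, (Quotient.mk' : X → Quotient (MulAction.orbitRel G X)) '' interior (N x) := by
    intro q _
    obtain ⟨x, rfl⟩ := Quotient.exists_rep q
    exact Set.mem_iUnion.2 ⟨x, x, mem_interior_iff_mem_nhds.2 (hN' x), rfl⟩
  obtain ⟨t, ht⟩ := isCompact_univ.elim_finite_subcover _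
    (fun x => isOpenMap_quotient_mk'_mul _ isOpen_interior) hcov
  refine ⟨⋃ x ∈ t, N x, t.isCompact_biUnion fun x _ => hN x, fun x => ?_⟩
  have h1 := ht (Set.mem_univ (Quotient.mk' x : Quotient (MulAction.orbitRel G X)))
  simp only [Set.mem_iUnion] at h1
  obtain ⟨y, hy, z, hz, hzx⟩ := h1
  obtain ⟨g, hg⟩ : z ∈ MulAction.orbit G x := Quotient.exact hzx
  refine ⟨g⁻¹, ?_⟩
  rw [inv_inv]
  have hg' : g • x = z := hg
  rw [hg']
  exact Set.mem_biUnion hy (interior_subset hz)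

theorem exists_cutoff (h : IsProperCocompact G X) : ∃ w, IsCutoff G X w := by
  obtain ⟨h1, h2, h3, h4⟩ := h
  obtain ⟨K, hK, hK'⟩ := exists_compact_cover (G := G) (X := X)
  obtain ⟨φ, hφ1, -, hφc, hφ⟩ := exists_continuous_one_zero_of_isCompact hK isClosed_empty
    (Set.disjoint_empty K)
  have hlf : LocallyFinite fun g : G => Function.support fun x => φ (g⁻¹ • x) ^ 2 := by
    intro x
    obtain ⟨N, hN, hN'⟩ := exists_compact_mem_nhds x
    refine ⟨N, hN', (ProperlyDiscontinuousSMul.finite_disjoint_inter_image (Γ := G)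
      hφc hN).subset ?_⟩
    rintro g ⟨y, hy, hyN⟩
    refine ⟨y, ⟨g⁻¹ • y, subset_tsupport _ fun h0 => hy ?_, smul_inv_smul g y⟩, hyN⟩
    change φ (g⁻¹ • y) ^ 2 = 0
    rw [h0]
    exact zero_pow two_ne_zero
  set S : X → ℝ := fun x => ∑ᶠ g : G, φ (g⁻¹ • x) ^ 2 with hS
  have hSc : Continuous S :=
    continuous_finsum (fun g => (φ.continuous.comp (continuous_const_smul g⁻¹)).pow 2) hlf
  have hfin : ∀ x, (Function.support fun g : G => φ (g⁻¹ • x) ^ 2).Finite := fun x =>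
    hlf.point_finite x
  have hSp : ∀ x, 0 < S x := fun x => by
    refine finsum_pos (fun g => sq_nonneg _) ?_ (hfin x)
    obtain ⟨g, hg⟩ := hK' x
    refine ⟨g, ?_⟩
    rw [hφ1 hg]
    norm_num
  have hSi : ∀ (g : G) x, S (g⁻¹ • x) = S x := fun g x => by
    change ∑ᶠ t : G, φ (t⁻¹ • g⁻¹ • x) ^ 2 = ∑ᶠ t : G, φ (t⁻¹ • x) ^ 2
    rw [← finsum_comp_equiv (Equiv.mulLeft g) (f := fun t : G => φ (t⁻¹ • x) ^ 2)]
    refine finsum_congr fun t => ?_
    rw [Equiv.coe_mulLeft, mul_inv_rev, mul_smul]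
  set v : X → ℂ := fun x => ((φ x / Real.sqrt (S x) : ℝ) : ℂ) with hv
  have hvc : Continuous v := Complex.continuous_ofReal.comp
    (φ.continuous.div hSc.sqrt fun x => (Real.sqrt_pos.2 (hSp x)).ne')
  have hvs : HasCompactSupport v := by
    refine hφc.mono fun x hx h0 => hx ?_
    simp only [hv, h0, zero_div, Complex.ofReal_zero]
  refine ⟨⟨⟨v, hvc⟩, hvs.is_zero_at_infty⟩, hvs, fun x => ⟨?_, Complex.ofReal_im _⟩, fun x => ?_⟩
  · change 0 ≤ (v x).re
    rw [hv, Complex.ofReal_re]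
    exact div_nonneg (hφ x).1 (Real.sqrt_nonneg _)
  · change ∑ᶠ g : G, v (g⁻¹ • x) ^ 2 = 1
    have h5 : ∀ g : G, v (g⁻¹ • x) ^ 2 = Complex.ofRealHom (φ (g⁻¹ • x) ^ 2 * (S x)⁻¹) := by
      intro g
      simp only [hv]
      rw [← Complex.ofReal_pow, div_pow, hSi, Real.sq_sqrt (hSp x).le, div_eq_mul_inv]
      rfl
    rw [finsum_congr h5, ← map_finsum Complex.ofRealHom, ← finsum_mul]
    · change Complex.ofRealHom (S x * (S x)⁻¹) = 1
      rw [mul_inv_cancel₀ (hSp x).ne', map_one]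
    · exact (hfin x).subset fun g hg h0 => hg (by
        change φ (g⁻¹ • x) ^ 2 * (S x)⁻¹ = 0
        have h6 : φ (g⁻¹ • x) ^ 2 = 0 := h0
        rw [h6, zero_mul])

end Vale.Agent.P089Z
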