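import Vale.Agent.P089Z.Defs
import Vale.Agent.P089Z.Alg22

/-! P089: the cutoff projection and the index matrix in the group ring. -/

namespace Vale.Agent.P089Z

open scoped InnerProductSpace ZeroAtInfty
open Matrix

section Cpt

variable {G H : Type} [Group G] [NormedAddCommGroup H] [InnerProductSpace ℂ H]

/-- compact operator, as an element of the ring of operators -/
def Cp (T : H →L[ℂ] H) : Prop := IsCompactOperator T

theorem Cp.zero : Cp (0 : H →L[ℂ] H) := isCompactOperator_zero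

theorem Cp.add {S T : H →L[ℂ] H} (hS : Cp S) (hT : Cp T) : Cp (S + T) :=
  IsCompactOperator.add hS hT

theorem Cp.neg {S : H →L[ℂ] H} (hS : Cp S) : Cp (-S) := IsCompactOperator.neg hS

theorem Cp.sub {S T : H →L[ℂ] H} (hS : Cp S) (hT : Cp T) : Cp (S - T) :=
  IsCompactOperator.sub hS hT

theorem Cp.mul_left (S : H →L[ℂ] H) {T : H →L[ℂ] H} (hT : Cp T) : Cp (S * T) :=
  IsCompactOperator.clm_comp hT S

theorem Cp.mul_right {S : H →L[ℂ] H} (hS : Cp S) (T : H →L[ℂ] H) : Cp (S * T) :=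
  IsCompactOperator.comp_clm hS T

theorem Cp.sum {ι : Type} (s : Finset ι) (T : ι → H →L[ℂ] H) (h : ∀ i ∈ s, Cp (T i)) :
    Cp (∑ i ∈ s, T i) :=
  Finset.sum_induction T Cp (fun _ _ => Cp.add) Cp.zero h

/-- all the coefficients are compact -/
structure Ideal (a : MonoidAlgebra (H →L[ℂ] H) G) : Prop where
  cp : ∀ s, Cp (a.coeff s)

theorem Ideal.mul_left (a : MonoidAlgebra (H →L[ℂ] H) G) {b : MonoidAlgebra (H →L[ℂ] H) G}
    (hb : Ideal b) : Ideal (a * b) := ⟨fun s => by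
  rw [MonoidAlgebra.coeff_mul_apply_left, Finsupp.sum]
  exact Cp.sum _ _ fun t _ => Cp.mul_left _ (hb.cp _)⟩

theorem Ideal.mul_right {a : MonoidAlgebra (H →L[ℂ] H) G} (ha : Ideal a)
    (b : MonoidAlgebra (H →L[ℂ] H) G) : Ideal (a * b) := ⟨fun s => by
  rw [MonoidAlgebra.coeff_mul_apply_left, Finsupp.sum]
  exact Cp.sum _ _ fun t _ => (ha.cp _).mul_right _⟩

theorem Ideal.sub {a b : MonoidAlgebra (H →L[ℂ] H) G} (ha : Ideal a) (hb : Ideal b) :
    Ideal (a - b) := ⟨fun s => (ha.cp s).sub (hb.cp s)⟩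

omit [Group G] in
theorem Ideal.neg {a : MonoidAlgebra (H →L[ℂ] H) G} (ha : Ideal a) : Ideal (-a) :=
  ⟨fun s => (ha.cp s).neg⟩

theorem defect_ideal {p F e e' : MonoidAlgebra (H →L[ℂ] H) G}
    (hpp : p * p = p) (hee : e * e = e) (hee' : e' * e' = e') (hpe : p * e = e * p)
    (hpe' : p * e' = e' * p) (hFe : F * e = e' * F)
    (hc : Ideal (p * F - F * p)) (hs : Ideal (p * (F * F - 1))) :
    Ideal (p * e - (p * e * F * (p * e')) * (p * e' * F * (p * e))) :=
  defect_mem (A := fun _ => True) (I := Ideal) (fun _ _ _ _ => trivial)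
    (fun x _ _ hy => Ideal.mul_left x hy) (fun _ y hx _ => Ideal.mul_right hx y)
    (fun _ _ hx hy => Ideal.sub hx hy) trivial trivial trivial hpp hee hee' hpe hpe' hFe hc hs

end Cpt

section Space

variable {G X : Type} [Group G] [TopologicalSpace X] [MulAction G X] [ContinuousConstSMul G X]

theorem shift_apply (g : G) (f : C₀(X, ℂ)) (x : X) : shift g f x = f (g⁻¹ • x) := rfl

theorem shift_shift (g h : G) (f : C₀(X, ℂ)) : shift g (shift h f) = shift (g * h) f := by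
  ext x
  rw [shift_apply, shift_apply, shift_apply, _root_.mul_inv_rev, mul_smul]

theorem shift_one (f : C₀(X, ℂ)) : shift (1 : G) f = f := by
  ext x
  rw [shift_apply, inv_one, one_smul]

theorem shift_mul (g : G) (f f' : C₀(X, ℂ)) : shift g (f * f') = shift g f * shift g f' := by
  ext x
  rfl

theorem finite_shift [ProperlyDiscontinuousSMul G X] {w : C₀(X, ℂ)} (hw : HasCompactSupport w) :
    {s : G | w * shift s w ≠ 0}.Finite := by
  refine (ProperlyDiscontinuousSMul.finite_disjoint_inter_image (Γ := G) hw hw).subset ?_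
  intro s hs
  have h1 : ∃ x, w x * w (s⁻¹ • x) ≠ 0 := by
    by_contra h
    push Not at h
    exact hs (ZeroAtInftyContinuousMap.ext h)
  obtain ⟨x, hx⟩ := h1
  obtain ⟨h2, h3⟩ := mul_ne_zero_iff.1 hx
  exact ⟨x, ⟨s⁻¹ • x, subset_tsupport _ h3, smul_inv_smul s x⟩, subset_tsupport _ h2⟩

theorem sum_apply_C0 {ι : Type} (s : Finset ι) (f : ι → C₀(X, ℂ)) (x : X) :
    (∑ i ∈ s, f i) x = ∑ i ∈ s, f i x := by
  classical
  induction s using Finset.induction_on with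
  | empty => rfl
  | insert a s ha ih => rw [Finset.sum_insert ha, Finset.sum_insert ha, ← ih]; rfl

theorem sum_cutoff {w : C₀(X, ℂ)} (hw : IsCutoff G X w) (T : Finset G)
    (hT : ∀ t, w * shift t w ≠ 0 → t ∈ T) (s : G) :
    ∑ t ∈ T, (w * shift t w) * shift t (w * shift (t⁻¹ * s) w) = w * shift s w := by
  ext x
  rw [sum_apply_C0]
  have h1 : ∀ t : G, ((w * shift t w) * shift t (w * shift (t⁻¹ * s) w)) x =
      (w x * w (s⁻¹ • x)) * w (t⁻¹ • x) ^ 2 := fun t => by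
    rw [shift_mul, shift_shift, mul_inv_cancel_left]
    change w x * w (t⁻¹ • x) * (w (t⁻¹ • x) * w (s⁻¹ • x)) = _
    ring
  rw [Finset.sum_congr rfl fun t _ => h1 t, ← Finset.mul_sum]
  change _ = w x * w (s⁻¹ • x)
  by_cases hx : w x = 0
  · rw [hx, zero_mul, zero_mul]
  · have h2 : ∑ t ∈ T, w (t⁻¹ • x) ^ 2 = 1 := by
      rw [← hw.2.2 x]
      refine (finsum_eq_sum_of_support_subset _ fun t ht => ?_).symm
      refine hT t fun h0 => ht ?_
      have h3 : w x * w (t⁻¹ • x) = 0 := congrArg (fun f : C₀(X, ℂ) => f x) h0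
      have h4 := (mul_eq_zero.1 h3).resolve_left hx
      change w (t⁻¹ • x) ^ 2 = 0
      rw [h4]
      exact zero_pow two_ne_zero
    rw [h2, mul_one]

variable {H : Type} [NormedAddCommGroup H] [InnerProductSpace ℂ H] [CompleteSpace H]

namespace Cycle

variable (Z : Cycle G X H)

theorem U_mul (g h : G) : (Z.U g).1 * (Z.U h).1 = (Z.U (g * h)).1 := by
  rw [map_mul]
  rfl

theorem U_one : (Z.U 1).1 = 1 := by
  rw [map_one]
  rfl

theorem U_rho (g : G) (f : C₀(X, ℂ)) : (Z.U g).1 * Z.ρ f = Z.ρ (shift g f) * (Z.U g).1 := by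
  rw [← Z.covariant, mul_assoc, Z.U_mul, inv_mul_cancel, Z.U_one, mul_one]

/-- the action of the cutoff projection -/
noncomputable def proj (w : C₀(X, ℂ)) : MonoidAlgebra (H →L[ℂ] H) G :=
  ∑ᶠ s : G, MonoidAlgebra.single s (Z.ρ (w * shift s w) * (Z.U s).1)

theorem coeff_proj {w : C₀(X, ℂ)} (hfin : {s : G | w * shift s w ≠ 0}.Finite) (s : G) :
    (Z.proj w).coeff s = Z.ρ (w * shift s w) * (Z.U s).1 := by
  classical
  have h1 : Z.proj w = ∑ t ∈ hfin.toFinset,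
      MonoidAlgebra.single t (Z.ρ (w * shift t w) * (Z.U t).1) := by
    refine finsum_eq_sum_of_support_subset _ fun t ht => ?_
    rw [Set.Finite.coe_toFinset]
    intro h0
    apply ht
    change MonoidAlgebra.single t (Z.ρ (w * shift t w) * (Z.U t).1) = 0
    rw [h0, map_zero, zero_mul, MonoidAlgebra.single_zero]
  rw [h1, MonoidAlgebra.coeff_sum, Finsupp.finsetSum_apply]
  simp only [MonoidAlgebra.coeff_single, Finsupp.single_apply]
  rw [Finset.sum_ite_eq']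
  split_ifs with hs
  · rfl
  · rw [Set.Finite.mem_toFinset, Set.mem_ofPred_eq, not_not] at hs
    rw [hs, map_zero, zero_mul]

theorem IsProj.eq {Z : Cycle G X H} {w : C₀(X, ℂ)} {p : MonoidAlgebra (H →L[ℂ] H) G}
    (h : Z.IsProj w p) (hfin : {s : G | w * shift s w ≠ 0}.Finite) : p = Z.proj w := by
  ext1
  ext1 s
  rw [h.coeff_eq, Z.coeff_proj hfin]

theorem proj_idem {w : C₀(X, ℂ)} (hw : IsCutoff G X w)
    (hfin : {s : G | w * shift s w ≠ 0}.Finite) : Z.proj w * Z.proj w = Z.proj w := by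
  classical
  ext1
  ext1 s
  rw [MonoidAlgebra.coeff_mul_apply_left, Finsupp.sum_of_support_subset (s := hfin.toFinset)]
  · rw [Z.coeff_proj hfin, ← sum_cutoff hw hfin.toFinset (fun t ht => hfin.mem_toFinset.2 ht) s,
      map_sum, Finset.sum_mul]
    refine Finset.sum_congr rfl fun t _ => ?_
    rw [Z.coeff_proj hfin, Z.coeff_proj hfin, map_mul Z.ρ (w * shift t w), mul_assoc,
      ← mul_assoc (Z.U t).1, Z.U_rho, mul_assoc (Z.ρ (shift t _)), Z.U_mul, mul_inv_cancel_left,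
      mul_assoc (Z.ρ (w * shift t w))]
  · intro t ht
    rw [Finsupp.mem_support_iff, Z.coeff_proj hfin] at ht
    rw [Set.Finite.mem_toFinset]
    intro h0
    apply ht
    rw [h0, map_zero, zero_mul]
  · intro t _
    rw [zero_mul]

theorem proj_comm {w : C₀(X, ℂ)} (hfin : {s : G | w * shift s w ≠ 0}.Finite) {e : H →L[ℂ] H}
    (h1 : ∀ f, e * Z.ρ f = Z.ρ f * e) (h2 : ∀ g, e * (Z.U g).1 = (Z.U g).1 * e) :
    Z.proj w * MonoidAlgebra.single 1 e = MonoidAlgebra.single 1 e * Z.proj w := by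
  ext1
  ext1 s
  rw [MonoidAlgebra.coeff_mul_single_one, MonoidAlgebra.coeff_single_one_mul, Z.coeff_proj hfin,
    ← mul_assoc, h1, mul_assoc, mul_assoc, h2]

theorem ideal_comm {w : C₀(X, ℂ)} (hfin : {s : G | w * shift s w ≠ 0}.Finite) :
    Ideal (Z.proj w * MonoidAlgebra.single 1 Z.F - MonoidAlgebra.single 1 Z.F * Z.proj w) := by
  refine ⟨fun s => ?_⟩
  rw [MonoidAlgebra.coeff_sub, Finsupp.sub_apply, MonoidAlgebra.coeff_mul_single_one,
    MonoidAlgebra.coeff_single_one_mul, Z.coeff_proj hfin]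
  set f := w * shift s w
  have h1 : Z.ρ f * (Z.U s).1 * Z.F - Z.F * (Z.ρ f * (Z.U s).1) =
      Z.ρ f * ((Z.U s).1 * Z.F * (Z.U s⁻¹).1 - Z.F) * (Z.U s).1 +
        (Z.ρ f * Z.F - Z.F * Z.ρ f) * (Z.U s).1 := by
    have h2 : (Z.U s⁻¹).1 * (Z.U s).1 = 1 := by rw [Z.U_mul, inv_mul_cancel, Z.U_one]
    have h3 : Z.ρ f * ((Z.U s).1 * Z.F * (Z.U s⁻¹).1 - Z.F) * (Z.U s).1 =
        Z.ρ f * (Z.U s).1 * Z.F * ((Z.U s⁻¹).1 * (Z.U s).1) - Z.ρ f * Z.F * (Z.U s).1 := by
      noncomm_ring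
    rw [h3, h2]
    noncomm_ring
  rw [h1]
  exact (Cp.mul_right (Z.compact_inv s f) _).add (Cp.mul_right (Z.compact_comm f) _)

theorem ideal_sq {w : C₀(X, ℂ)} (hfin : {s : G | w * shift s w ≠ 0}.Finite) :
    Ideal (Z.proj w * (MonoidAlgebra.single 1 Z.F * MonoidAlgebra.single 1 Z.F - 1)) := by
  refine ⟨fun s => ?_⟩
  rw [MonoidAlgebra.single_mul_single, mul_one, MonoidAlgebra.one_def, ← MonoidAlgebra.single_sub,
    MonoidAlgebra.coeff_mul_single_one, Z.coeff_proj hfin]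
  set f := w * shift s w
  have h1 : Z.ρ f * (Z.U s).1 = (Z.U s).1 * Z.ρ (shift s⁻¹ f) := by
    rw [Z.U_rho, shift_shift, mul_inv_cancel, shift_one]
  rw [h1, mul_assoc]
  exact Cp.mul_left _ (Z.compact_sq _)

/-- the projection onto the even part -/
noncomputable def e₀ : H →L[ℂ] H := (2 : ℂ)⁻¹ • (1 + Z.γ)

/-- the projection onto the odd part -/
noncomputable def e₁ : H →L[ℂ] H := (2 : ℂ)⁻¹ • (1 - Z.γ)

theorem e₀_idem : Z.e₀ * Z.e₀ = Z.e₀ := by
  have h : (1 + Z.γ) * (1 + Z.γ) = (2 : ℂ) • (1 + Z.γ) := by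
    rw [two_smul, add_mul, one_mul, mul_add, mul_one, Z.γ_sq, add_comm Z.γ 1]
  rw [e₀, smul_mul_smul_comm, h, smul_smul]
  norm_num

theorem e₁_idem : Z.e₁ * Z.e₁ = Z.e₁ := by
  have h : (1 - Z.γ) * (1 - Z.γ) = (2 : ℂ) • (1 - Z.γ) := by
    rw [two_smul, sub_mul, one_mul, mul_sub, mul_one, Z.γ_sq]
    abel
  rw [e₁, smul_mul_smul_comm, h, smul_smul]
  norm_num

theorem e₀_comm {T : H →L[ℂ] H} (h : Z.γ * T = T * Z.γ) : Z.e₀ * T = T * Z.e₀ := by
  rw [e₀, smul_mul_assoc, mul_smul_comm, add_mul, mul_add, one_mul, mul_one, h]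

theorem e₁_comm {T : H →L[ℂ] H} (h : Z.γ * T = T * Z.γ) : Z.e₁ * T = T * Z.e₁ := by
  rw [e₁, smul_mul_assoc, mul_smul_comm, sub_mul, mul_sub, one_mul, mul_one, h]

theorem F_e₀ : Z.F * Z.e₀ = Z.e₁ * Z.F := by
  rw [e₀, e₁, smul_mul_assoc, mul_smul_comm, sub_mul, mul_add, one_mul, mul_one, Z.F_odd,
    sub_neg_eq_add]

theorem F_e₁ : Z.F * Z.e₁ = Z.e₀ * Z.F := by
  rw [e₀, e₁, smul_mul_assoc, mul_smul_comm, add_mul, mul_sub, one_mul, mul_one, Z.F_odd,
    sub_eq_add_neg]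

end Cycle

omit [CompleteSpace H] in
theorem single_idem {e : H →L[ℂ] H} (he : e * e = e) :
    (MonoidAlgebra.single (1 : G) e) * MonoidAlgebra.single 1 e = MonoidAlgebra.single 1 e := by
  rw [MonoidAlgebra.single_mul_single, mul_one, he]

omit [CompleteSpace H] in
theorem single_tw {F e e' : H →L[ℂ] H} (h : F * e = e' * F) :
    (MonoidAlgebra.single (1 : G) F) * MonoidAlgebra.single 1 e =
      MonoidAlgebra.single 1 e' * MonoidAlgebra.single 1 F := by
  rw [MonoidAlgebra.single_mul_single, MonoidAlgebra.single_mul_single, h]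

theorem mul_idem {B : Type} [Ring B] {p e : B} (hp : p * p = p) (he : e * e = e)
    (h : p * e = e * p) : p * e * (p * e) = p * e := by
  rw [mul_assoc, ← mul_assoc e p e, ← h, mul_assoc p e e, he, ← mul_assoc, hp]

theorem indexMat_add {B : Type} [Ring B] (p₀ p₁ S Q : B) :
    indexMat p₀ p₁ S Q + !![0, 0; 0, 1] = indexIdem p₀ p₁ S Q := by
  ext i j
  fin_cases i <;> fin_cases j <;> simp [indexMat, indexIdem, sub_eq_neg_add]

namespace Cycle

variable (Z : Cycle G X H) {w : C₀(X, ℂ)}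

theorem comm₀ (hfin : {s : G | w * shift s w ≠ 0}.Finite) :
    Z.proj w * MonoidAlgebra.single 1 Z.e₀ = MonoidAlgebra.single 1 Z.e₀ * Z.proj w :=
  Z.proj_comm hfin (fun f => Z.e₀_comm (Z.ρ_even f)) fun g => Z.e₀_comm (Z.U_even g)

theorem comm₁ (hfin : {s : G | w * shift s w ≠ 0}.Finite) :
    Z.proj w * MonoidAlgebra.single 1 Z.e₁ = MonoidAlgebra.single 1 Z.e₁ * Z.proj w :=
  Z.proj_comm hfin (fun f => Z.e₁_comm (Z.ρ_even f)) fun g => Z.e₁_comm (Z.U_even g)

theorem index_idem (hw : IsCutoff G X w) (hfin : {s : G | w * shift s w ≠ 0}.Finite) :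
    (Z.index (Z.proj w) + !![0, 0; 0, 1]) * (Z.index (Z.proj w) + !![0, 0; 0, 1]) = Z.index (Z.proj w) + !![0, 0; 0, 1] := by
  have h0 : Z.even (Z.proj w) * Z.even (Z.proj w) = Z.even (Z.proj w) :=
    mul_idem (Z.proj_idem hw hfin) (single_idem Z.e₀_idem) (Z.comm₀ hfin)
  have h1 : Z.odd (Z.proj w) * Z.odd (Z.proj w) = Z.odd (Z.proj w) :=
    mul_idem (Z.proj_idem hw hfin) (single_idem Z.e₁_idem) (Z.comm₁ hfin)
  rw [index, indexMat_add]
  refine indexIdem_idem h0 h1 ?_ ?_ ?_ ?_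
  · rw [mul_assoc, h0]
  · rw [← mul_assoc, ← mul_assoc, h1]
  · rw [← mul_assoc, ← mul_assoc, h0]
  · rw [mul_assoc, h1]

theorem index_ideal (hw : IsCutoff G X w) (hfin : {s : G | w * shift s w ≠ 0}.Finite)
    (j k : Fin 2) : Ideal (Z.index (Z.proj w) j k) := by
  have h0 : Ideal (Z.even (Z.proj w) - (Z.even (Z.proj w) * MonoidAlgebra.single 1 Z.F * Z.odd (Z.proj w)) *
      (Z.odd (Z.proj w) * MonoidAlgebra.single 1 Z.F * Z.even (Z.proj w))) :=
    defect_ideal (Z.proj_idem hw hfin) (single_idem Z.e₀_idem)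
      (single_idem Z.e₁_idem) (Z.comm₀ hfin) (Z.comm₁ hfin) (single_tw Z.F_e₀)
      (Z.ideal_comm hfin) (Z.ideal_sq hfin)
  have h1 : Ideal (Z.odd (Z.proj w) - (Z.odd (Z.proj w) * MonoidAlgebra.single 1 Z.F * Z.even (Z.proj w)) *
      (Z.even (Z.proj w) * MonoidAlgebra.single 1 Z.F * Z.odd (Z.proj w))) :=
    defect_ideal (Z.proj_idem hw hfin) (single_idem Z.e₁_idem)
      (single_idem Z.e₀_idem) (Z.comm₁ hfin) (Z.comm₀ hfin) (single_tw Z.F_e₁)
      (Z.ideal_comm hfin) (Z.ideal_sq hfin)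
  fin_cases j <;> fin_cases k
  · change Ideal (_ ^ 2)
    rw [sq]
    exact h0.mul_left _
  · exact (h0.mul_right _).mul_right _
  · exact h0.mul_left _
  · change Ideal (-_ ^ 2)
    rw [sq]
    exact (h1.mul_left _).neg

end Cycle

end Space

end Vale.Agent.P089Z
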