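import Vale.Agent.P089.BC.Defs
import Mathlib.Topology.ContinuousMap.ZeroAtInfty
import Mathlib.Topology.Algebra.ConstMulAction
import Mathlib.Algebra.MonoidAlgebra.Defs
import Mathlib.LinearAlgebra.Matrix.Notation

/-! The coefficient-free Baum-Connes assembly map in degree zero: equivariant Kasparov cycles,
descent, product with the cutoff projection, index. -/

namespace Vale.Agent.P089Z

open scoped InnerProductSpace ZeroAtInfty
open Matrix Vale.Agent.P089.BC

section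

variable (G X : Type) [Group G] [TopologicalSpace X] [MulAction G X] [ContinuousConstSMul G X]

/-- `X` is a locally compact Hausdorff space, the action of the discrete group `G` on `X` is
proper, and the quotient is compact. -/
def IsProperCocompact : Prop :=
  T2Space X ∧ LocallyCompactSpace X ∧ ProperlyDiscontinuousSMul G X ∧
    CompactSpace (MulAction.orbitRel.Quotient G X)

/-- `w` is a cutoff function: compactly supported, nonnegative, `∑_g w(g⁻¹ x)² = 1`. -/
def IsCutoff (w : C₀(X, ℂ)) : Prop :=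
  HasCompactSupport w ∧ (∀ x, 0 ≤ (w x).re ∧ (w x).im = 0) ∧ ∀ x, ∑ᶠ g : G, w (g⁻¹ • x) ^ 2 = 1

variable {G X}

/-- The action of `G` on `C₀(X)`: the value of `g f` at `x` is `f(g⁻¹ x)`. -/
noncomputable def shift (g : G) (f : C₀(X, ℂ)) : C₀(X, ℂ) :=
  f.comp (Homeomorph.smul g⁻¹).toCocompactMap

variable (G X) in
/-- A cycle for `KK^G_0(C₀(X), ℂ)` on the Hilbert space `H`: a grading `γ`, an even covariant
representation `ρ, U` of `C₀(X), G`, and an odd operator `F` which is, modulo locally compact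
operators, a self-adjoint, invariant involution that commutes with `C₀(X)`. -/
structure Cycle (H : Type) [NormedAddCommGroup H] [InnerProductSpace ℂ H] [CompleteSpace H] where
  /-- the grading operator -/
  γ : H →L[ℂ] H
  /-- the representation of `C₀(X)` -/
  ρ : C₀(X, ℂ) →⋆ₙₐ[ℂ] (H →L[ℂ] H)
  /-- the unitary representation of `G` -/
  U : G →* unitary (H →L[ℂ] H)
  /-- the operator -/
  F : H →L[ℂ] H
  γ_star : star γ = γ
  γ_sq : γ * γ = 1
  ρ_even : ∀ f, γ * ρ f = ρ f * γ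
  U_even : ∀ g, γ * (U g).1 = (U g).1 * γ
  F_odd : γ * F = -(F * γ)
  covariant : ∀ g f, (U g).1 * ρ f * (U g⁻¹).1 = ρ (shift g f)
  compact_sq : ∀ f, IsCompactOperator (ρ f * (F * F - 1) : H →L[ℂ] H)
  compact_star : ∀ f, IsCompactOperator (ρ f * (F - star F) : H →L[ℂ] H)
  compact_comm : ∀ f, IsCompactOperator (ρ f * F - F * ρ f : H →L[ℂ] H)
  compact_inv : ∀ g f, IsCompactOperator (ρ f * ((U g).1 * F * (U g⁻¹).1 - F) : H →L[ℂ] H)

/-- Let `S` map the range of the idempotent `p₀` to the range of `p₁`, with parametrix `Q`. Put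
`s₀ = p₀ - Q S` and `s₁ = p₁ - S Q`. This is `R - diag(0, 1)`, where `R` is the index idempotent
`[[s₀², s₀ (p₀ + s₀) Q], [S s₀, 1 - s₁²]]`; the index of `S` is `[R] - [diag(0, 1)]`. -/
def indexMat {B : Type} [Ring B] (p₀ p₁ S Q : B) : Matrix (Fin 2) (Fin 2) B :=
  !![(p₀ - Q * S) ^ 2, (p₀ - Q * S) * (p₀ + (p₀ - Q * S)) * Q; S * (p₀ - Q * S), -(p₁ - S * Q) ^ 2]

/-- The matrix `diag(0, 1)`. -/
def diag01 (B : Type) [Ring B] : Matrix (Fin 2) (Fin 2) B := !![0, 0; 0, 1]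

/-- The matrix `A + diag(0, 1)`. -/
def addDiag {B : Type} [Ring B] (A : Matrix (Fin 2) (Fin 2) B) : Matrix (Fin 2) (Fin 2) B :=
  A + diag01 B

/-- `[A + diag(0, 1)] - [diag(0, 1)] = [q]` in the `K_0`-group of the subring given by `S`. -/
def IndexEq {B : Type} [Ring B] (S : B → Prop) (A : Matrix (Fin 2) (Fin 2) B) {m : ℕ}
    (q : Matrix (Fin m) (Fin m) B) : Prop :=
  SameK S (fromBlocks (addDiag A) 0 0 0) (fromBlocks (diag01 B) 0 0 q)

variable {H : Type} [NormedAddCommGroup H] [InnerProductSpace ℂ H] [CompleteSpace H]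

/-- Descent: the Hilbert module is `H ⊗ C*_r(G)`, on which the group ring `B(H)[G]` acts (`T s`
acts as `T ⊗ λ_s`), and `a ∈ C_c(G, C₀(X))` acts as `∑_s ρ(a s) U_s ⊗ λ_s`. The element `p` is
the action of the cutoff projection `s ↦ w · (s w)`. -/
structure Cycle.IsProj (Z : Cycle G X H) (w : C₀(X, ℂ)) (p : MonoidAlgebra (H →L[ℂ] H) G) :
    Prop where
  coeff_eq : ∀ s, p.coeff s = Z.ρ (w * shift s w) * (Z.U s).1

/-- The even part of the range of `p`. -/
noncomputable def Cycle.even (Z : Cycle G X H) (p : MonoidAlgebra (H →L[ℂ] H) G) :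
    MonoidAlgebra (H →L[ℂ] H) G :=
  p * MonoidAlgebra.single 1 ((2 : ℂ)⁻¹ • (1 + Z.γ))

/-- The odd part of the range of `p`. -/
noncomputable def Cycle.odd (Z : Cycle G X H) (p : MonoidAlgebra (H →L[ℂ] H) G) :
    MonoidAlgebra (H →L[ℂ] H) G :=
  p * MonoidAlgebra.single 1 ((2 : ℂ)⁻¹ • (1 - Z.γ))

/-- The product of the cutoff projection `p` with the descent of the cycle is the cycle for
`KK(ℂ, C*_r(G))` with module `p (H ⊗ C*_r(G))` and operator `p (F ⊗ 1) p`; this is the matrix of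
its index. -/
noncomputable def Cycle.index (Z : Cycle G X H) (p : MonoidAlgebra (H →L[ℂ] H) G) :
    Matrix (Fin 2) (Fin 2) (MonoidAlgebra (H →L[ℂ] H) G) :=
  indexMat (Z.even p) (Z.odd p) (Z.odd p * MonoidAlgebra.single 1 Z.F * Z.even p)
    (Z.even p * MonoidAlgebra.single 1 Z.F * Z.odd p)

variable {E K ι : Type} [NormedAddCommGroup E] [InnerProductSpace ℂ E]
  [NormedAddCommGroup K] [InnerProductSpace ℂ K]

/-- `A` is the operator `∑_s λ_s ⊗ a_s` on `ℓ²(G) ⊗ ℓ²(ℕ)`, where the separable Hilbert space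
`H` with orthonormal basis `d i` is embedded in `ℓ²(ℕ)` by `d i ↦ δ_(u i)`. -/
def IsSum (c : HilbertBasis (G × ℕ) ℂ E) (d : HilbertBasis ι ℂ H) (u : ι ↪ ℕ)
    (a : MonoidAlgebra (H →L[ℂ] H) G) (A : E →L[ℂ] E) : Prop :=
  (∀ g h i j, ⟪c (g, u i), A (c (h, u j))⟫_ℂ = ⟪d i, a.coeff (g * h⁻¹) (d j)⟫_ℂ) ∧
    ∀ j k, ¬ (j.2 ∈ Set.range u ∧ k.2 ∈ Set.range u) → ⟪c j, A (c k)⟫_ℂ = 0

/-- The class in `K_0(C*_r(G)) ≅ K_0(C*_r(G) ⊗ 𝒦)` of the idempotent matrix `q` is the image under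
the assembly map of the class of a cycle over a proper, cocompact `G`-space. -/
def InImage (b : HilbertBasis G ℂ K) (c : HilbertBasis (G × ℕ) ℂ E) {m : ℕ}
    (q : Matrix (Fin m) (Fin m) (K →L[ℂ] K)) : Prop :=
  ∃ (X : Type) (_ : TopologicalSpace X) (_ : MulAction G X) (_ : ContinuousConstSMul G X)
    (H : Type) (_ : NormedAddCommGroup H) (_ : InnerProductSpace ℂ H) (_ : CompleteSpace H)
    (ι : Type) (d : HilbertBasis ι ℂ H) (u : ι ↪ ℕ) (Z : Cycle G X H) (w : C₀(X, ℂ))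
    (p : MonoidAlgebra (H →L[ℂ] H) G) (A : Matrix (Fin 2) (Fin 2) (E →L[ℂ] E))
    (q' : Matrix (Fin m) (Fin m) (E →L[ℂ] E)),
    IsProperCocompact G X ∧ IsCutoff G X w ∧ Z.IsProj w p ∧
    (∀ j k, IsSum c d u (Z.index p j k) (A j k)) ∧
    (∀ j k, IsCorner b c (q j k) (q' j k)) ∧ IndexEq (IsU c) A q'

/-- The assembly map `μ_0` of `G` is surjective. -/
def AssemblySurjective (b : HilbertBasis G ℂ K) (c : HilbertBasis (G × ℕ) ℂ E) : Prop :=
  ∀ (m : ℕ) (q : Matrix (Fin m) (Fin m) (K →L[ℂ] K)), (∀ j k, q j k ∈ CstarR b) →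
    q * q = q → InImage b c q

/-- There is a projection `P` in `C*_r(G)` such that no multiple `m [P]`, `m ≥ 1`, is in the image
of the assembly map. -/
def MissesProjection [CompleteSpace K] (b : HilbertBasis G ℂ K) (c : HilbertBasis (G × ℕ) ℂ E) :
    Prop :=
  ∃ P ∈ CstarR b, P * P = P ∧ IsSelfAdjoint P ∧
    ∀ m : ℕ, 1 ≤ m → ¬ InImage b c (Matrix.diagonal fun _ : Fin m => P)

/-- The class of the unit of `C*_r(G)` is in the image of the assembly map. -/
def HitsUnit (b : HilbertBasis G ℂ K) (c : HilbertBasis (G × ℕ) ℂ E) : Prop :=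
  InImage b c (1 : Matrix (Fin 1) (Fin 1) (K →L[ℂ] K))

/-- The cutoff projection acts as an idempotent of `B(H)[G]`; the index matrix acts on
`ℓ²(G) ⊗ ℓ²(ℕ)`, lies over `C*_r(G) ⊗ 𝒦`, and gives an idempotent. -/
def Cycle.HasIndex (Z : Cycle G X H) (w : C₀(X, ℂ)) (c : HilbertBasis (G × ℕ) ℂ E)
    (d : HilbertBasis ι ℂ H) (u : ι ↪ ℕ) : Prop :=
  ∃ (p : MonoidAlgebra (H →L[ℂ] H) G) (A : Matrix (Fin 2) (Fin 2) (E →L[ℂ] E)),
    Z.IsProj w p ∧ IsIdempotentElem p ∧ (∀ j k, IsSum c d u (Z.index p j k) (A j k)) ∧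
      (∀ j k, IsRoe c (A j k)) ∧ IsIdempotentElem (addDiag A)

/-- The recipe for the assembly map applies to every cycle: cutoff functions exist, and each
cycle has an index. -/
def RecipeApplies (c : HilbertBasis (G × ℕ) ℂ E) : Prop :=
  ∀ (X : Type) [TopologicalSpace X] [MulAction G X] [ContinuousConstSMul G X],
    IsProperCocompact G X → (∃ w, IsCutoff G X w) ∧
    ∀ (H : Type) [NormedAddCommGroup H] [InnerProductSpace ℂ H] [CompleteSpace H]
      (ι : Type) (d : HilbertBasis ι ℂ H) (u : ι ↪ ℕ) (Z : Cycle G X H) (w : C₀(X, ℂ)),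
      IsCutoff G X w → Z.HasIndex w c d u

end

end Vale.Agent.P089Z
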