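import Vale.Agent.P089Z.Rep

/-! P089: a class which is detected by traces of long elements is not a difference of idempotents
of finite propagation. -/

namespace Vale.Agent.P089Z

open Matrix NNReal
open Vale.Agent.P089 Vale.Agent.P089.Asm Vale.Agent.P086

variable {G : Type} [Group G]

theorem approx_roeU (len : G → ℕ) {n : ℕ}
    (e : Matrix (Fin n) (Fin n) (L2 (G × ℕ) →L[ℂ] L2 (G × ℕ))) (he : ∀ i j, e i j ∈ roeU G) :
    ∃ R₀ : ℕ, ∀ R ≥ R₀, ∀ ε > 0, ∃ k : ℕ, ∃ a : Matrix (Fin n) (Fin n) (UU G),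
      ∀ i j, a i j ∈ Sk G k ∧ a i j ∈ fil len R ∧
        ‖(⟨e i j, roeU_le_UU (he i j)⟩ : UU G) - a i j‖ < ε := by
  classical
  have he' : ∀ i j, ∃ c : ℂ, RoeB (e i j - c • 1) := he
  choose c hc using he'
  choose E hE using fun i j => (hc i j).prop
  set E' : Finset G := insert 1 (Finset.univ.biUnion fun a : Fin n × Fin n => E a.1 a.2) with hE'
  refine ⟨E'.sup len, fun R hR ε hε => ?_⟩
  choose k₀ hk₀ using fun i j => (hc i j).exists_cut (half_pos hε)
  set k : ℕ := (Finset.univ : Finset (Fin n × Fin n)).sup fun a => k₀ a.1 a.2 with hk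
  have hkle : ∀ i j, k₀ i j ≤ k := fun i j =>
    Finset.le_sup (f := fun a : Fin n × Fin n => k₀ a.1 a.2) (Finset.mem_univ (i, j))
  have hmem : ∀ i j, c i j • (1 : L2 (G × ℕ) →L[ℂ] L2 (G × ℕ)) +
      pk k * (e i j - c i j • 1) * pk k ∈ UU G :=
    fun i j => (UU G).add_mem (smul_one_mem_UU _) (roeU_le_UU ((hc i j).cut k).mem_roeU)
  refine ⟨k, fun i j => ⟨_, hmem i j⟩, fun i j => ⟨cut_mem_SkA k _ _, ?_, ?_⟩⟩
  · refine ⟨E', fun s hs => (Finset.le_sup hs).trans hR, ?_⟩
    have h2 : SuppIn E' (e i j - c i j • 1) := by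
      intro g h m l hne
      rw [hE']
      refine Finset.mem_insert_of_mem (Finset.mem_biUnion.2 ⟨(i, j), Finset.mem_univ _, ?_⟩)
      by_contra hcon
      apply hne
      rw [← ent_bl, hE i j g h hcon, ent_zero]
    have h3 : SuppIn E' (1 : L2 (G × ℕ) →L[ℂ] L2 (G × ℕ)) :=
      SuppIn.one.mono (by rw [Finset.singleton_subset_iff]; exact Finset.mem_insert_self _ _)
    exact (h3.smul _).add (h2.cut k)
  · change ‖e i j - (c i j • 1 + pk k * (e i j - c i j • 1) * pk k)‖ < ε
    have h3 := hk₀ i j k (hkle i j)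
    have h4 : e i j - (c i j • 1 + pk k * (e i j - c i j • 1) * pk k) =
        (e i j - c i j • 1) - pk k * (e i j - c i j • 1) * pk k := by abel
    rw [h4]
    exact h3.trans_lt (half_lt_self hε)

theorem not_same {P : L2 G →L[ℂ] L2 G} {len : G → ℕ} {K : ℝ} (hD : BC.Detect P len K)
    (hP : P ∈ CstarR G) (hPP : P * P = P) (r : ℕ) (hr : 1 ≤ r) {n : ℕ}
    (e f : Matrix (Fin n) (Fin n) (L2 (G × ℕ) →L[ℂ] L2 (G × ℕ)))
    (he : ∀ i j, e i j ∈ roeU G) (hf : ∀ i j, f i j ∈ roeU G) (hee : e * e = e) (hff : f * f = f) :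
    ¬ SameK IsU (fromBlocks e 0 0 0)
      (fromBlocks f 0 0 (Matrix.diagonal fun _ : Fin r => Ei 0 0 P)) := by
  classical
  obtain ⟨h1, hlen, H⟩ := hD
  rintro ⟨m, x, y, hxy, hX, hY⟩
  obtain ⟨R₁, hR₁⟩ := approx_roeU len e he
  obtain ⟨R₂, hR₂⟩ := approx_roeU len f hf
  set PU : UU G := ⟨Ei 0 0 P, Ei_mem_UU hP⟩ with hPU
  have hPU2 : PU * PU = PU := by
    apply Subtype.ext
    change Ei 0 0 P * Ei 0 0 P = Ei 0 0 P
    rw [Ei_mul_Ei, hPP]
  have hdv : (Matrix.diagonal fun _ : Fin r => PU).map (UU G).val =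
      Matrix.diagonal fun _ : Fin r => Ei 0 0 P := by
    ext1 i j
    rw [Matrix.map_apply]
    by_cases hij : i = j
    · subst hij
      rw [Matrix.diagonal_apply_eq, Matrix.diagonal_apply_eq]
      rfl
    · rw [Matrix.diagonal_apply_ne _ hij, Matrix.diagonal_apply_ne _ hij]
      rfl
  refine abstract_trace_estimate' (B := UU G) (Sk G) isClosed_Sk Sk_mono Sk_dense (fil len)
    (fil_mono len) (one_mem_fil h1) (fil_mul hlen) (Matrix.diagonal fun _ : Fin r => PU) 1 ?_ ?_
    (n := n) (fun _ => Asm.liftM e fun i j => roeU_le_UU (he i j))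
    (fun _ => Asm.liftM f fun i j => roeU_le_UU (hf i j))
    ?_ ?_ ?_ ?_ ?_ (max R₁ R₂) ?_ ?_ ?_ (fun k => k * 2) (2 * |K|) ?_
  · intro i j
    by_cases hij : i = j
    · subst hij
      rw [Matrix.diagonal_apply_eq]
      exact Ei_mem_SkA P
    · rw [Matrix.diagonal_apply_ne _ hij]
      exact (Sk G 1).zero_mem
  · rw [Matrix.diagonal_mul_diagonal]
    simp only [hPU2]
  · intro t
    apply map_val_inj
    rw [Matrix.map_mul]
    exact hee
  · intro t
    apply map_val_inj
    rw [Matrix.map_mul]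
    exact hff
  · exact fun i j => continuous_const
  · exact fun i j => continuous_const
  · refine ⟨∑ i, ∑ j, (‖e i j‖ + ‖f i j‖), fun t i j => ?_⟩
    have h3 : ∀ i j, 0 ≤ ‖e i j‖ + ‖f i j‖ := fun i j => by positivity
    have h2 : ‖e i j‖ + ‖f i j‖ ≤ ∑ i, ∑ j, (‖e i j‖ + ‖f i j‖) :=
      calc ‖e i j‖ + ‖f i j‖ ≤ ∑ j, (‖e i j‖ + ‖f i j‖) :=
            Finset.single_le_sum (f := fun j => ‖e i j‖ + ‖f i j‖) (fun j _ => h3 i j)
              (Finset.mem_univ j)
        _ ≤ _ := Finset.single_le_sum (f := fun i => ∑ j, (‖e i j‖ + ‖f i j‖))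
              (fun i _ => Finset.sum_nonneg fun j _ => h3 i j) (Finset.mem_univ i)
    have h6 := norm_nonneg (e i j)
    have h7 := norm_nonneg (f i j)
    constructor
    · change ‖e i j‖ ≤ _
      linarith only [h2, h7]
    · change ‖f i j‖ ≤ _
      linarith only [h2, h6]
  · intro ε hε
    obtain ⟨k, a, ha⟩ := hR₁ _ (le_max_left R₁ R₂) ε hε
    exact ⟨0, k, a, ha⟩
  · intro ε hε
    obtain ⟨k, a, ha⟩ := hR₂ _ (le_max_right R₁ R₂) ε hε
    exact ⟨0, k, a, ha⟩
  · refine ⟨m, Asm.liftM x fun i j => IsU.mem_UU (hxy i j).1,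
      Asm.liftM y fun i j => IsU.mem_UU (hxy i j).2, ?_, ?_⟩
    · apply map_val_inj
      rw [Matrix.map_mul, Asm.liftM_map, Asm.liftM_map, hX, fromBlocks_map, fromBlocks_map]
      simp only [Subalgebra.coe_val, ZeroMemClass.coe_zero, Matrix.map_zero, OneMemClass.coe_one,
        Matrix.map_one, fromBlocks_inj, and_self, and_true]
      rfl
    · apply map_val_inj
      rw [Matrix.map_mul, Asm.liftM_map, Asm.liftM_map, hY, fromBlocks_map, fromBlocks_map, hdv]
      simp only [Subalgebra.coe_val, ZeroMemClass.coe_zero, Matrix.map_zero, OneMemClass.coe_one,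
        Matrix.map_one, fromBlocks_inj, and_self, and_true]
      rfl
  · intro L₀
    obtain ⟨L, hL, t, ht2, htr, hlow, hbig⟩ := H (L₀ + 2)
    refine ⟨L - 1, by omega, fun k => (tauK t k).comp valL, fun k => ?_, fun k x hx y hy => ?_,
      fun k x hx hxL => ?_, fun k hk => ?_⟩
    · refine (ContinuousLinearMap.opNorm_comp_le _ _).trans ?_
      have h2 := norm_tauK_le t k
      have h3 := norm_valL_le (G := G)
      have h4 : (0 : ℝ) ≤ k := Nat.cast_nonneg k
      calc ‖tauK t k‖ * ‖(valL : UU G →L[ℂ] _)‖ ≤ (k * ‖t‖) * 1 := by gcongr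
        _ ≤ (k * 2) * 1 := by (clear * - ht2; gcongr)
        _ = k * 2 := mul_one _
    · change tauK t k (x.1 * y.1) = tauK t k (y.1 * x.1)
      exact tauK_trace t (CstarR G) (trace_cstarR t htr) (UU_cmp_mem x.2) (UU_cmp_mem y.2)
        (SkA_comm hx) (SkA_comm hy)
    · obtain ⟨E, hE, hEx⟩ := hxL
      change tauK t k x.1 = 0
      refine tauK_eq_zero t k (fun g h s m n => UU_equivariant x.2 g h s m n) (E := E)
        (fun g h m n hne => hEx g h m n hne) (fun s hs => hlow s ?_)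
      have := hE s hs
      omega
    · have hval : ∀ i : Fin r, ((tauK t k).comp valL) ((Matrix.diagonal fun _ : Fin r => PU) i i) =
          t P := by
        intro i
        rw [Matrix.diagonal_apply_eq]
        change tauK t k (Ei 0 0 P) = t P
        rw [tauK_Ei t hk]
      rw [Finset.sum_congr rfl fun i _ => hval i, Finset.sum_const, Finset.card_univ,
        Fintype.card_fin, nsmul_eq_mul, norm_mul, Complex.norm_natCast]
      have hr1 : (1 : ℝ) ≤ r := by exact_mod_cast hr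
      refine le_trans ?_ (le_mul_of_one_le_left (norm_nonneg _) hr1)
      refine le_trans (Real.exp_le_exp.2 ?_) hbig
      have h2 : ((L - 1 : ℕ) : ℝ) = (L : ℝ) - 1 := by
        rw [Nat.cast_sub (by omega)]
        simp
      rw [h2]
      have h3 : (2 : ℝ) ≤ L := by exact_mod_cast (by omega : 2 ≤ L)
      have h4 := le_abs_self K
      have h5 := abs_nonneg K
      nlinarith only [h4, h3, h5]

end Vale.Agent.P089Z
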