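import Vale.Agent.P089Z.Rep

/-! P089: the class of the unit is in the image of the assembly map. -/

namespace Vale.Agent.P089Z

open scoped InnerProductSpace ZeroAtInfty
open Matrix Vale.Agent.P089 Vale.Agent.P089.Asm Vale.Agent.P086

section Mul

variable {X : Type} [TopologicalSpace X]

theorem norm_C0_le (f : C₀(X, ℂ)) (x : X) : ‖f x‖ ≤ ‖f‖ := f.toBCF.norm_coe_le_norm x

theorem mop_le (f : C₀(X, ℂ)) (ξ : L2 X) (x : X) :
    ‖f x * (ξ : X → ℂ) x‖ ≤ ‖(((‖f‖ : ℝ) : ℂ) • ξ : L2 X) x‖ := by
  change _ ≤ ‖((‖f‖ : ℝ) : ℂ) * (ξ : X → ℂ) x‖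
  rw [norm_mul, norm_mul, Complex.norm_real, norm_norm]
  exact mul_le_mul_of_nonneg_right (norm_C0_le f x) (norm_nonneg _)

/-- the multiplication operator -/
noncomputable def mop (f : C₀(X, ℂ)) : L2 X →L[ℂ] L2 X :=
  LinearMap.mkContinuous
    { toFun := fun ξ => ⟨fun x => f x * (ξ : X → ℂ) x,
        (lp.memℓp (((‖f‖ : ℝ) : ℂ) • ξ : L2 X)).mono' (mop_le f ξ)⟩
      map_add' := fun ξ η => lp.ext (funext fun x => mul_add _ _ _)
      map_smul' := fun c ξ => lp.ext (funext fun x => mul_left_comm _ _ _) } ‖f‖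
    fun ξ => by
      refine (lp.norm_mono (y := (((‖f‖ : ℝ) : ℂ) • ξ : L2 X)) (by norm_num) (mop_le f ξ)).trans ?_
      rw [norm_smul, Complex.norm_real, norm_norm]

theorem mop_apply (f : C₀(X, ℂ)) (ξ : L2 X) (x : X) :
    (mop f ξ : X → ℂ) x = f x * (ξ : X → ℂ) x := rfl

theorem ent_mop [DecidableEq X] (f : C₀(X, ℂ)) (x y : X) :
    ent (mop f) x y = if x = y then f x else 0 := by
  rw [entx_eq, mop_apply, lp.single_apply, Pi.single_apply, mul_ite, mul_one, mul_zero]

/-- the representation by multiplication operators -/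
noncomputable def mopHom : C₀(X, ℂ) →⋆ₙₐ[ℂ] (L2 X →L[ℂ] L2 X) where
  toFun := mop
  map_smul' c f := by
    ext ξ x
    exact mul_assoc c (f x) _
  map_zero' := by
    ext ξ x
    exact zero_mul _
  map_add' f g := by
    ext ξ x
    exact add_mul (f x) (g x) _
  map_mul' f g := by
    ext ξ x
    exact mul_assoc (f x) (g x) _
  map_star' f := by
    classical
    refine entx_ext fun x y => ?_
    rw [ent_star, ent_mop, ent_mop]
    by_cases h : x = y
    · subst h
      rw [if_pos rfl, if_pos rfl]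
      rfl
    · rw [if_neg h, if_neg (Ne.symm h), star_zero]

theorem cp_mop [DiscreteTopology X] (f : C₀(X, ℂ)) : Cp (mop f) := by
  classical
  refine isClosed_setOfPred_isCompactOperator.closure_subset
    (Metric.mem_closure_iff.2 fun ε hε => ?_)
  have h1 : ∀ᶠ x in Filter.cofinite, ‖f x‖ < ε / 2 := by
    have h := zero_at_infty f
    rw [Filter.cocompact_eq_cofinite] at h
    exact h.norm.eventually (gt_mem_nhds (by rw [norm_zero]; exact half_pos hε))
  have h2 : {x | ¬ ‖f x‖ < ε / 2}.Finite := h1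
  set T : L2 X →L[ℂ] L2 X := ∑ s ∈ h2.toFinset,
    (lp.singleContinuousLinearMap ℂ (fun _ : X => ℂ) 2 s) ∘L
      (f s • lp.evalCLM ℂ (fun _ : X => ℂ) 2 s) with hT
  have hTa : ∀ (ξ : L2 X) x, (T ξ : X → ℂ) x =
      if x ∈ h2.toFinset then f x * (ξ : X → ℂ) x else 0 := by
    intro ξ x
    rw [hT, _root_.sum_apply, lp.coeFn_sum, Finset.sum_apply, ← Finset.sum_ite_eq
      h2.toFinset x fun s => f s * (ξ : X → ℂ) s]
    refine Finset.sum_congr rfl fun s _ => ?_
    change (lp.single 2 s (f s * (ξ : X → ℂ) s) : L2 X) x = _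
    rw [lp.single_apply, Pi.single_apply]
  refine ⟨T, ?_, ?_⟩
  · refine Cp.sum _ _ fun s _ => ?_
    exact (isCompactOperator_of_locallyCompactSpace_dom
      (f s • lp.evalCLM ℂ (fun _ : X => ℂ) 2 s : L2 X →L[ℂ] ℂ)).clm_comp
      (lp.singleContinuousLinearMap ℂ (fun _ : X => ℂ) 2 s)
  · rw [dist_eq_norm]
    refine lt_of_le_of_lt (ContinuousLinearMap.opNorm_le_bound _ (half_pos hε).le fun ξ => ?_)
      (half_lt_self hε)
    refine (lp.norm_mono (y := (((ε / 2 : ℝ) : ℂ) • ξ : L2 X)) (by norm_num) fun x => ?_).trans ?_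
    · change ‖f x * (ξ : X → ℂ) x - (T ξ : X → ℂ) x‖ ≤ ‖((ε / 2 : ℝ) : ℂ) * (ξ : X → ℂ) x‖
      rw [hTa]
      split_ifs with hx
      · rw [sub_self, norm_zero]
        exact norm_nonneg _
      · rw [Set.Finite.mem_toFinset, Set.mem_ofPred_eq, not_not] at hx
        rw [sub_zero, norm_mul, norm_mul, Complex.norm_real, Real.norm_of_nonneg (half_pos hε).le]
        exact mul_le_mul_of_nonneg_right hx.le (norm_nonneg _)
    · rw [norm_smul, Complex.norm_real, Real.norm_of_nonneg (half_pos hε).le]

end Mul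

section Group

variable {G : Type} [Group G] [TopologicalSpace G] [DiscreteTopology G]

theorem properCocompact_self : IsProperCocompact G G := by
  refine ⟨inferInstance, inferInstance, ⟨fun {K L} hK hL => ?_⟩, ?_⟩
  · refine ((hL.finite_of_discrete.prod hK.finite_of_discrete).image
      fun a : G × G => a.1 * a.2⁻¹).subset ?_
    rintro g ⟨_, ⟨x, hx, rfl⟩, hy⟩
    exact ⟨(g * x, x), ⟨hy, hx⟩, mul_inv_cancel_right g x⟩
  · have : Subsingleton (MulAction.orbitRel.Quotient G G) := ⟨fun a b => by
      obtain ⟨x, rfl⟩ := Quotient.exists_rep a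
      obtain ⟨y, rfl⟩ := Quotient.exists_rep b
      exact Quotient.sound ⟨x * y⁻¹, inv_mul_cancel_right x y⟩⟩
    infer_instance

open Classical in
/-- the indicator function of the unit -/
noncomputable def delta : C₀(G, ℂ) where
  toFun x := if x = 1 then 1 else 0
  continuous_toFun := continuous_of_discreteTopology
  zero_at_infty' := by
    rw [Filter.cocompact_eq_cofinite]
    refine tendsto_const_nhds.congr' ?_
    refine (Set.finite_singleton (1 : G)).subset fun x hx => ?_
    by_contra h
    exact hx (if_neg h).symm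

theorem delta_apply [DecidableEq G] (x : G) :
    (delta : C₀(G, ℂ)) x = if x = 1 then 1 else 0 := by
  by_cases h : x = 1
  · rw [if_pos h]
    exact if_pos h
  · rw [if_neg h]
    exact if_neg h

theorem isCutoff_delta : IsCutoff G G delta := by
  classical
  refine ⟨?_, fun x => ?_, fun x => ?_⟩
  · refine HasCompactSupport.intro (K := {1}) isCompact_singleton fun x hx => ?_
    rw [delta_apply, if_neg (show ¬ x = 1 from hx)]
  · rw [delta_apply]
    split_ifs <;> simp
  · rw [finsum_eq_single _ x]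
    · rw [delta_apply, if_pos (by simp), one_pow]
    · intro g hg
      rw [delta_apply, if_neg, zero_pow two_ne_zero]
      intro h
      apply hg
      rw [smul_eq_mul, inv_mul_eq_one] at h
      exact h

theorem delta_shift [DecidableEq G] (s : G) :
    (delta : C₀(G, ℂ)) * shift s delta = if s = 1 then delta else 0 := by
  ext x
  change (delta : C₀(G, ℂ)) x * (delta : C₀(G, ℂ)) (s⁻¹ • x) = _
  rw [delta_apply, delta_apply]
  by_cases hx : x = 1
  · subst hx
    by_cases hs : s = 1
    · simp [hs, delta_apply]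
    · simp [hs]
  · by_cases hs : s = 1
    · simp [hs, hx, delta_apply]
    · simp [hs, hx]

/-- the regular representation as a unitary representation -/
noncomputable def lamUn : G →* unitary (L2 G →L[ℂ] L2 G) where
  toFun g := ⟨lam g, permOp_mem_unitary _⟩
  map_one' := Subtype.ext lam_one
  map_mul' g h := Subtype.ext (lam_mul g h)

/-- the cycle of the unit -/
noncomputable def unitCycle : Cycle G G (L2 G) where
  γ := 1
  ρ := mopHom
  U := lamUn
  F := 0
  γ_star := star_one _
  γ_sq := mul_one _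
  ρ_even f := by rw [one_mul, mul_one]
  U_even g := by rw [one_mul, mul_one]
  F_odd := by rw [mul_zero, zero_mul, neg_zero]
  covariant g f := by
    ext ξ x
    change f (g⁻¹ * x) * (ξ : G → ℂ) (g⁻¹⁻¹ * (g⁻¹ * x)) = f (g⁻¹ * x) * (ξ : G → ℂ) x
    rw [inv_inv, mul_inv_cancel_left]
  compact_sq f := (cp_mop f).mul_right _
  compact_star f := (cp_mop f).mul_right _
  compact_comm f := ((cp_mop f).mul_right _).sub (Cp.mul_left _ (cp_mop f))
  compact_inv g f := (cp_mop f).mul_right _

theorem unit_proj : (unitCycle (G := G)).proj delta = MonoidAlgebra.single 1 (mop delta) := by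
  classical
  rw [Cycle.proj, finsum_eq_single _ 1]
  · rw [delta_shift, if_pos rfl, Cycle.U_one, mul_one]
    rfl
  · intro s hs
    rw [delta_shift, if_neg hs, map_zero, zero_mul, MonoidAlgebra.single_zero]

theorem mop_delta_sq : mop (delta : C₀(G, ℂ)) * mop delta = mop delta := by
  classical
  have h := delta_shift (G := G) 1
  rw [if_pos rfl, shift_one] at h
  have h2 := map_mul (mopHom (X := G)) delta delta
  rw [h] at h2
  exact h2.symm

theorem unit_index : (unitCycle (G := G)).index ((unitCycle (G := G)).proj delta) =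
    !![MonoidAlgebra.single 1 (mop delta), 0; 0, 0] := by
  have h0 : (unitCycle (G := G)).even ((unitCycle (G := G)).proj delta) =
      MonoidAlgebra.single 1 (mop delta) := by
    have h : ((2 : ℂ)⁻¹ • (1 + 1) : L2 G →L[ℂ] L2 G) = 1 := by
      rw [← two_smul ℂ, smul_smul]
      norm_num
    rw [Cycle.even, unit_proj, MonoidAlgebra.single_mul_single, mul_one]
    change MonoidAlgebra.single 1 (mop delta * ((2 : ℂ)⁻¹ • (1 + 1))) = _
    rw [h, mul_one]
  have h1 : (unitCycle (G := G)).odd ((unitCycle (G := G)).proj delta) = 0 := by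
    rw [Cycle.odd]
    change _ * MonoidAlgebra.single 1 ((2 : ℂ)⁻¹ • (1 - 1)) = _
    rw [sub_self, smul_zero, MonoidAlgebra.single_zero, mul_zero]
  rw [Cycle.index, h0, h1, indexMat]
  simp only [mul_zero, zero_mul, sub_zero, sq, single_idem mop_delta_sq, neg_zero]

end Group

end Vale.Agent.P089Z
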