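import Vale.Agent.P089Z.Est
import Vale.Agent.P089Z.Cut
import Vale.Agent.P089Z.Ex
import Vale.Agent.P089.H981.Main

/-! P089: the assembly map, defined by Kasparov cycles, is not surjective. -/

namespace Vale.Agent.P089Z

open scoped InnerProductSpace ZeroAtInfty
open Matrix Vale.Agent.P089 Vale.Agent.P089.Asm Vale.Agent.P086

variable {G K E : Type} [Group G] [NormedAddCommGroup K] [InnerProductSpace ℂ K] [CompleteSpace K]
  [NormedAddCommGroup E] [InnerProductSpace ℂ E] [CompleteSpace E]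

theorem map_D {B C : Type} [Ring B] [Ring C] {F : Type} [FunLike F B C] [RingHomClass F B C]
    (φ : F) : (!![0, 0; 0, 1] : Matrix (Fin 2) (Fin 2) B).map φ = !![0, 0; 0, 1] := by
  ext1 i j
  fin_cases i <;> fin_cases j <;> simp

theorem D_mem (j k : Fin 2) :
    (!![0, 0; 0, 1] : Matrix (Fin 2) (Fin 2) (L2 (G × ℕ) →L[ℂ] L2 (G × ℕ))) j k ∈ roeU G := by
  fin_cases j <;> fin_cases k
  · exact (roeU G).zero_mem
  · exact (roeU G).zero_mem
  · exact (roeU G).zero_mem
  · exact (roeU G).one_mem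

theorem not_inImage {P : L2 G →L[ℂ] L2 G} {len : G → ℕ} {κ : ℝ} (hD : BC.Detect P len κ)
    (hP : P ∈ CstarR G) (hPP : P * P = P) (b : HilbertBasis G ℂ K)
    (c : HilbertBasis (G × ℕ) ℂ E) (m : ℕ) (hm : 1 ≤ m) :
    ¬ InImage b c (Matrix.diagonal fun _ : Fin m => BC.toH b P) := by
  classical
  rintro ⟨X, _, _, _, H, _, _, _, ι, d, u, Z, w, p, A, q', ⟨-, -, hpd, -⟩, hw, hp, hA, hq, r, x, y,
    hxy, h1, h2⟩
  have hfin : {s : G | w * shift s w ≠ 0}.Finite := finite_shift hw.1
  obtain rfl := hp.eq hfin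
  have hA' : A.map (BC.frE c) = (Z.index (Z.proj w)).map (rep (cj d u)) := by
    ext1 j k
    exact isSum_iff.1 (hA j k)
  have h7 : BC.frE b (BC.toH b P) = P := by
    ext1 v
    rw [BC.frE_apply, BC.toH_apply, LinearIsometryEquiv.apply_symm_apply,
      LinearIsometryEquiv.apply_symm_apply]
  have hq' : q'.map (BC.frE c) = Matrix.diagonal fun _ : Fin m => Ei 0 0 P := by
    ext1 j k
    have h3 : IsCorner (BC.frE b ((Matrix.diagonal fun _ : Fin m => BC.toH b P) j k))
        (BC.frE c (q' j k)) := by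
      refine ⟨fun g h' => ?_, fun i l hil => ?_⟩
      · rw [BC.ent_frE, BC.ent_frE]
        exact (hq j k).1 g h'
      · rw [BC.ent_frE]
        exact (hq j k).2 i l hil
    rw [Matrix.map_apply, IsCorner.eq_Ei h3]
    by_cases hjk : j = k
    · subst hjk
      rw [Matrix.diagonal_apply_eq, Matrix.diagonal_apply_eq, h7]
    · rw [Matrix.diagonal_apply_ne _ hjk, Matrix.diagonal_apply_ne _ hjk, map_zero]
      exact (EiL (G := G)).map_zero
  have hone : (1 : Matrix (Fin r) (Fin r) (E →L[ℂ] E)).map (BC.frE c) = 1 :=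
    Matrix.map_one _ (map_zero _) (map_one _)
  refine not_same hD hP hPP m hm ((Z.index (Z.proj w)).map (rep (cj d u)) + !![0, 0; 0, 1]) !![0, 0; 0, 1]
    (fun j k => ?_) D_mem (rep_idem _ (Z.index_idem hw hfin)) ?_
    ⟨r, x.map (BC.frE c), y.map (BC.frE c),
      fun j k => ⟨BC.isU_frE (hxy j k).1, BC.isU_frE (hxy j k).2⟩, ?_, ?_⟩
  · exact (roeU G).add_mem (roeB_rep _ _ fun s =>
      cj_compact d u ((Z.index_ideal hw hfin j k).cp s)).mem_roeU (D_mem j k)
  · ext1 j k
    fin_cases j <;> fin_cases k <;> simp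
  · unfold addDiag diag01 at h1
    have h3 := congrArg (fun M => M.map (BC.frE c)) h1
    simp only [Matrix.map_mul, fromBlocks_map, Matrix.map_zero, map_zero, hone,
      Matrix.map_add _ (map_add (BC.frE c)), map_D, hA'] at h3
    exact h3
  · unfold diag01 at h2
    have h3 := congrArg (fun M => M.map (BC.frE c)) h2
    simp only [Matrix.map_mul, fromBlocks_map, Matrix.map_zero, map_zero, hone, map_D, hq'] at h3
    exact h3

theorem recipeApplies (c : HilbertBasis (G × ℕ) ℂ E) : RecipeApplies c := by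
  intro X _ _ _ hX
  refine ⟨exists_cutoff hX, fun H _ _ _ ι d u Z w hw => ?_⟩
  obtain ⟨-, -, hpd, -⟩ := hX
  have hfin : {s : G | w * shift s w ≠ 0}.Finite := finite_shift hw.1
  refine ⟨Z.proj w, ((Z.index (Z.proj w)).map (rep (cj d u))).map (BC.frE c).symm,
    ⟨Z.coeff_proj hfin⟩, Z.proj_idem hw hfin, fun j k => ?_, fun j k => ?_, ?_⟩
  · exact isSum_iff.2 (StarAlgEquiv.apply_symm_apply _ _)
  · refine isRoe_of_frE ?_
    rw [Matrix.map_apply, StarAlgEquiv.apply_symm_apply]
    exact (roeB_rep _ _ fun s => cj_compact d u ((Z.index_ideal hw hfin j k).cp s)).isRoe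
  · have h3 := congrArg (fun M => M.map (BC.frE c).symm) (rep_idem (cj d u) (Z.index_idem hw hfin))
    simp only [Matrix.map_mul, Matrix.map_add _ (map_add (BC.frE c).symm), map_D] at h3
    exact h3

omit [CompleteSpace E] in
theorem isU_of_isRoe {c : HilbertBasis (G × ℕ) ℂ E} {T : E →L[ℂ] E} (h : BC.IsRoe c T) :
    BC.IsU c T := ⟨0, T, subset_closure h, fun v => by rw [zero_smul, zero_add]⟩

theorem isRoe_zero (c : HilbertBasis (G × ℕ) ℂ E) : BC.IsRoe c 0 :=
  isRoe_of_frE (by rw [map_zero]; exact RoeB.zero.isRoe)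

theorem isU_one (c : HilbertBasis (G × ℕ) ℂ E) : BC.IsU c 1 :=
  ⟨1, 0, subset_closure (isRoe_zero c), fun v => by simp⟩

omit [CompleteSpace K] in
theorem one_inImage [Countable G] (b : HilbertBasis G ℂ K) (c : HilbertBasis (G × ℕ) ℂ E) :
    InImage b c (1 : Matrix (Fin 1) (Fin 1) (K →L[ℂ] K)) := by
  classical
  obtain ⟨f, hf⟩ := exists_injective_nat G
  let u : G ↪ ℕ := ⟨fun g => if g = 1 then 0 else f g + 1, fun g h e => by
    by_cases hg : g = 1 <;> by_cases hh : h = 1
    · rw [hg, hh]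
    · simp [hg, hh] at e
    · simp [hg, hh] at e
    · simp only [hg, hh, if_false, add_left_inj] at e
      exact hf e⟩
  have hu1 : u 1 = 0 := if_pos rfl
  let d : HilbertBasis G ℂ (L2 G) := HilbertBasis.ofRepr (LinearIsometryEquiv.refl ℂ _)
  let _ : TopologicalSpace G := ⊥
  have : DiscreteTopology G := ⟨rfl⟩
  have hd : ∀ (S : L2 G →L[ℂ] L2 G) i j, ⟪d i, S (d j)⟫_ℂ = ent S i j := fun S i j =>
    (BC.ent_frE d S i j).symm
  set a : MonoidAlgebra (L2 G →L[ℂ] L2 G) G := MonoidAlgebra.single 1 (mop delta) with ha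
  set T : E →L[ℂ] E := (BC.frE c).symm (rep (cj d u) a) with hT
  have hTs : IsSum c d u a T := isSum_iff.2 (StarAlgEquiv.apply_symm_apply _ _)
  have h0s : IsSum c d u 0 0 := isSum_iff.2 (by rw [map_zero, map_zero])
  have hTT : T * T = T := by rw [hT, ← map_mul, ← map_mul, single_idem mop_delta_sq]
  have hTr : BC.IsRoe c T := by
    refine isRoe_of_frE ?_
    rw [hT, StarAlgEquiv.apply_symm_apply]
    refine (roeB_rep _ _ fun s => cj_compact d u ?_).isRoe
    rw [ha, MonoidAlgebra.coeff_single, Finsupp.single_apply]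
    split_ifs
    · exact cp_mop _
    · exact Cp.zero
  have hent : ∀ g h i j, ⟪c (g, u i), T (c (h, u j))⟫_ℂ =
      if g = h ∧ i = 1 ∧ j = 1 then 1 else 0 := by
    intro g h i j
    rw [hTs.1, hd, ha, MonoidAlgebra.coeff_single, Finsupp.single_apply]
    by_cases hgh : g = h
    · rw [if_pos (by rw [hgh, mul_inv_cancel]), ent_mop, delta_apply]
      by_cases hi : i = 1 <;> by_cases hj : j = 1
      · simp [hgh, hi, hj]
      · simp [hi, hj, Ne.symm hj]
      · simp [hi]
      · simp [hi]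
    · rw [if_neg fun e => hgh (mul_inv_eq_one.1 e.symm), ent_zero, if_neg fun e => hgh e.1]
  have hfin : {s : G | (delta : C₀(G, ℂ)) * shift s delta ≠ 0}.Finite := by
    obtain ⟨-, -, hpd, -⟩ := properCocompact_self (G := G)
    exact finite_shift isCutoff_delta.1
  have hU0 := isU_of_isRoe (isRoe_zero c)
  have hU1 := isU_one c
  have hUT := isU_of_isRoe hTr
  refine ⟨G, inferInstance, inferInstance, inferInstance, L2 G, inferInstance, inferInstance,
    inferInstance, G, d, u, unitCycle, delta, unitCycle.proj delta, !![T, 0; 0, 0], !![T],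
    properCocompact_self, isCutoff_delta, ⟨unitCycle.coeff_proj hfin⟩, fun j k => ?_,
    fun j k => ?_, 0,
    fromBlocks (fromBlocks !![0, 0; 0, 1] !![T; 0] 0 0) 0 0 1,
    fromBlocks (fromBlocks !![0, 0; 0, 1] 0 !![T, 0] 0) 0 0 1, ?_, ?_, ?_⟩
  · rw [unit_index]
    fin_cases j <;> fin_cases k
    · exact hTs
    · exact h0s
    · exact h0s
    · exact h0s
  · fin_cases j
    fin_cases k
    refine ⟨fun g h => ?_, ?_⟩
    · change ⟪c (g, 0), T (c (h, 0))⟫_ℂ = ⟪b g, b h⟫_ℂ
      have h1 := hent g h 1 1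
      rw [hu1] at h1
      rw [h1, orthonormal_iff_ite.1 b.orthonormal]
      simp
    · rintro ⟨g, m⟩ ⟨h, n⟩ hmn
      change ⟪c (g, m), T (c (h, n))⟫_ℂ = 0
      by_cases hr : m ∈ Set.range u ∧ n ∈ Set.range u
      · obtain ⟨⟨i, rfl⟩, ⟨j, rfl⟩⟩ := hr
        rw [hent, if_neg]
        rintro ⟨-, rfl, rfl⟩
        exact hmn ⟨hu1, hu1⟩
      · exact hTs.2 _ _ hr
  · rintro ((j | j) | j) ((k | k) | k)
    · fin_cases j <;> fin_cases k
      · exact ⟨hU0, hU0⟩
      · exact ⟨hU0, hU0⟩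
      · exact ⟨hU0, hU0⟩
      · exact ⟨hU1, hU1⟩
    · fin_cases j <;> fin_cases k
      · exact ⟨hUT, hU0⟩
      · exact ⟨hU0, hU0⟩
    · exact k.elim0
    · fin_cases j
      fin_cases k
      · exact ⟨hU0, hUT⟩
      · exact ⟨hU0, hU0⟩
    · exact ⟨hU0, hU0⟩
    · exact k.elim0
    · exact j.elim0
    · exact j.elim0
    · exact j.elim0
  · simp only [fromBlocks_multiply, Matrix.mul_zero, Matrix.zero_mul, add_zero, zero_add, mul_one,
      addDiag, diag01]
    congr 2
    ext1 j k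
    fin_cases j <;> fin_cases k <;> simp [hTT]
  · simp only [fromBlocks_multiply, Matrix.mul_zero, Matrix.zero_mul, add_zero, zero_add, mul_one,
      diag01]
    congr 2
    · ext1 j k
      fin_cases j <;> fin_cases k <;> simp
    · ext1 j k
      fin_cases j <;> fin_cases k <;> simp
    · ext1 j k
      fin_cases j
      fin_cases k <;> simp
    · ext1 j k
      fin_cases j
      fin_cases k
      simp [hTT]

theorem final : ∃ (G : Type) (_ : Group G), Countable G ∧ Group.FG G ∧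
    ∀ (K : Type) [NormedAddCommGroup K] [InnerProductSpace ℂ K] [CompleteSpace K]
      (E : Type) [NormedAddCommGroup E] [InnerProductSpace ℂ E] [CompleteSpace E]
      (b : HilbertBasis G ℂ K) (c : HilbertBasis (G × ℕ) ℂ E),
      ¬ AssemblySurjective b c ∧ MissesProjection b c ∧ RecipeApplies c ∧ HitsUnit b c := by
  obtain ⟨x, -, G, hG, hc, hfg, -, P, hP, hPP, hPs, -, len, κ, h1, h2, h3⟩ := opConclusionFG
  have hD : BC.Detect P len κ := ⟨h1, h2, h3⟩
  refine ⟨G, hG, hc, hfg, fun K _ _ _ E _ _ _ b c => ⟨fun hsurj => ?_,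
    ⟨BC.toH b P, BC.toH_mem b hP, by rw [← map_mul, hPP], hPs.map (BC.toH b),
      not_inImage hD hP hPP b c⟩, recipeApplies c, one_inImage b c⟩⟩
  refine not_inImage hD hP hPP b c 1 le_rfl (hsurj 1 _ (fun j k => ?_) ?_)
  · rw [Subsingleton.elim j k, Matrix.diagonal_apply_eq]
    exact BC.toH_mem b hP
  · rw [Matrix.diagonal_mul_diagonal]
    simp only [← map_mul, hPP]

end Vale.Agent.P089Z
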