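import Vale.Agent.P089Z.Cyc
import Vale.Agent.P089.H499.Main

/-! P089: the representation of the group ring `B(H)[G]` on `ℓ²(G × ℕ)`. -/

namespace Vale.Agent.P089Z

open scoped InnerProductSpace
open Vale.Agent.P089 Vale.Agent.P089.Asm Vale.Agent.P089.Ind

section Conj

variable {H ι : Type} [NormedAddCommGroup H] [InnerProductSpace ℂ H] [CompleteSpace H]
  (d : HilbertBasis ι ℂ H) (u : ι ↪ ℕ)

/-- the operator on `ℓ²(ℕ)` given by an operator on `H` -/
noncomputable def cj : (H →L[ℂ] H) →ₙ+* OpN where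
  toFun T := pushL2 u u.injective ∘L BC.frE d T ∘L
    ContinuousLinearMap.adjoint (pushL2 u u.injective)
  map_mul' S T := by
    ext1 ξ
    change pushL2 u u.injective (BC.frE d (S * T)
      (ContinuousLinearMap.adjoint (pushL2 u u.injective) ξ)) =
      pushL2 u u.injective (BC.frE d S (ContinuousLinearMap.adjoint (pushL2 u u.injective)
        (pushL2 u u.injective (BC.frE d T (ContinuousLinearMap.adjoint (pushL2 u u.injective) ξ)))))
    have h := congrArg (fun A : L2 ι →L[ℂ] L2 ι =>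
      A (BC.frE d T (ContinuousLinearMap.adjoint (pushL2 u u.injective) ξ)))
      (adjoint_pushL2_comp u.injective)
    have h' : ContinuousLinearMap.adjoint (pushL2 u u.injective)
        (pushL2 u u.injective (BC.frE d T (ContinuousLinearMap.adjoint (pushL2 u u.injective) ξ))) =
        BC.frE d T (ContinuousLinearMap.adjoint (pushL2 u u.injective) ξ) := h
    rw [h', map_mul]
    rfl
  map_zero' := by rw [map_zero, ContinuousLinearMap.zero_comp, ContinuousLinearMap.comp_zero]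
  map_add' S T := by rw [map_add, ContinuousLinearMap.add_comp, ContinuousLinearMap.comp_add]

theorem cj_apply (T : H →L[ℂ] H) (ξ : L2 ℕ) : cj d u T ξ =
    pushL2 u u.injective (BC.frE d T (ContinuousLinearMap.adjoint (pushL2 u u.injective) ξ)) := rfl

theorem adj_single [DecidableEq ι] (j : ι) : ContinuousLinearMap.adjoint (pushL2 u u.injective)
    (lp.single 2 (u j) (1 : ℂ)) = lp.single 2 j (1 : ℂ) := by
  apply lp.ext
  funext i
  rw [adjoint_pushL2_apply, lp.single_apply, lp.single_apply, Pi.single_apply, Pi.single_apply]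
  by_cases h : i = j
  · rw [if_pos h, if_pos (by rw [h])]
  · rw [if_neg h, if_neg fun h' => h (u.injective h')]

theorem adj_single_ne {n : ℕ} (hn : n ∉ Set.range u) :
    ContinuousLinearMap.adjoint (pushL2 u u.injective) (lp.single 2 n (1 : ℂ)) = 0 := by
  apply lp.ext
  funext i
  rw [adjoint_pushL2_apply, lp.single_apply, Pi.single_apply, if_neg fun h => hn ⟨i, h⟩]
  rfl

theorem ent_cj (T : H →L[ℂ] H) (i j : ι) : ent (cj d u T) (u i) (u j) = ⟪d i, T (d j)⟫_ℂ := by
  classical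
  rw [← BC.ent_frE, entx_eq, entx_eq, cj_apply, pushL2_apply, adj_single]

theorem ent_cj_ne (T : H →L[ℂ] H) {m n : ℕ} (h : ¬ (m ∈ Set.range u ∧ n ∈ Set.range u)) :
    ent (cj d u T) m n = 0 := by
  classical
  rw [entx_eq, cj_apply]
  by_cases hm : m ∈ Set.range u
  · rw [adj_single_ne u fun hn => h ⟨hm, hn⟩, map_zero, map_zero]
    rfl
  · exact pushL2_apply_not_mem u.injective _ hm

theorem cj_compact {T : H →L[ℂ] H} (hT : Cp T) : IsCompactOperator (cj d u T) := by
  have h1 : IsCompactOperator ((T : H → H) ∘ (d.repr.symm : L2 ι → H)) :=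
    IsCompactOperator.comp_clm hT (d.repr.symm.toContinuousLinearEquiv : L2 ι →L[ℂ] H)
  have h2 : IsCompactOperator (BC.frE d T) :=
    h1.clm_comp (d.repr.toContinuousLinearEquiv : H →L[ℂ] L2 ι)
  exact (h2.comp_clm (ContinuousLinearMap.adjoint (pushL2 u u.injective))).clm_comp
    (pushL2 u u.injective)

end Conj

section Tens

variable {G : Type} [Group G]

theorem lsh_inj (s : G) : Function.Injective fun j : G × ℕ => (s * j.1, j.2) := by
  rintro ⟨g, m⟩ ⟨h, n⟩ e
  obtain ⟨e1, e2⟩ := Prod.mk.inj e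
  exact Prod.ext (mul_left_cancel e1) e2

/-- the operator `λ_s ⊗ T` -/
noncomputable def tens (s : G) (T : OpN) : L2 (G × ℕ) →L[ℂ] L2 (G × ℕ) :=
  pushL2 _ (lsh_inj s) ∘L amp T

theorem bl_tens [DecidableEq G] (s : G) (T : OpN) (g h : G) :
    bl (tens s T) g h = if s = g * h⁻¹ then T else 0 := by
  refine entx_ext fun m n => ?_
  have h1 : ent (tens s T) (g, m) (h, n) = ent (amp T : L2 (G × ℕ) →L[ℂ] L2 (G × ℕ))
      (s⁻¹ * g, m) (h, n) := by
    have h2 : ((g, m) : G × ℕ) = (fun j : G × ℕ => (s * j.1, j.2)) (s⁻¹ * g, m) := by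
      simp only [mul_inv_cancel_left]
    rw [entx_eq, entx_eq, h2]
    exact pushL2_apply (lsh_inj s) _ _
  rw [ent_bl, h1]
  split_ifs with hs
  · have h3 : s⁻¹ * g = h := by rw [hs]; group
    rw [h3, ent_amp_self]
  · rw [ent_amp_ne, ent_zero]
    intro h3
    apply hs
    rw [← h3]
    group

variable {B : Type} [Ring B] (φ : B →ₙ+* OpN)

theorem exists_rep (a : MonoidAlgebra B G) : ∃ T : L2 (G × ℕ) →L[ℂ] L2 (G × ℕ),
    ∀ g h, bl T g h = φ (a.coeff (g * h⁻¹)) := by
  classical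
  induction a using MonoidAlgebra.induction_linear with
  | zero => exact ⟨0, fun g h => by rw [bl_zero, MonoidAlgebra.coeff_zero, Finsupp.zero_apply,
      map_zero]⟩
  | add a b ha hb =>
    obtain ⟨S, hS⟩ := ha
    obtain ⟨T, hT⟩ := hb
    exact ⟨S + T, fun g h => by
      rw [bl_add, hS, hT, MonoidAlgebra.coeff_add, Finsupp.add_apply, map_add]⟩
  | single s r =>
    refine ⟨tens s (φ r), fun g h => ?_⟩
    rw [bl_tens, MonoidAlgebra.coeff_single, Finsupp.single_apply]
    split_ifs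
    · rfl
    · rw [map_zero]

/-- the operator `∑_s λ_s ⊗ φ (a s)` -/
noncomputable def repF (a : MonoidAlgebra B G) : L2 (G × ℕ) →L[ℂ] L2 (G × ℕ) :=
  (exists_rep φ a).choose

theorem bl_repF (a : MonoidAlgebra B G) (g h : G) :
    bl (repF φ a) g h = φ (a.coeff (g * h⁻¹)) := (exists_rep φ a).choose_spec g h

/-- the representation of the group ring -/
noncomputable def rep : MonoidAlgebra B G →ₙ+* (L2 (G × ℕ) →L[ℂ] L2 (G × ℕ)) where
  toFun := repF φ
  map_zero' := bl_ext fun g h => by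
    rw [bl_repF, bl_zero, MonoidAlgebra.coeff_zero, Finsupp.zero_apply, map_zero]
  map_add' a b := bl_ext fun g h => by
    rw [bl_add, bl_repF, bl_repF, bl_repF, MonoidAlgebra.coeff_add, Finsupp.add_apply, map_add]
  map_mul' a b := bl_ext fun g h => by
    rw [bl_mul_eq (E := b.coeff.support), bl_repF, MonoidAlgebra.coeff_mul_apply_right,
      Finsupp.sum, map_sum]
    · refine Finset.sum_congr rfl fun x _ => ?_
      rw [bl_repF, bl_repF, map_mul, mul_inv_cancel_right, _root_.mul_inv_rev, mul_assoc]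
    · intro g' h' hn
      rw [bl_repF, Finsupp.notMem_support_iff.1 hn, map_zero]

theorem bl_rep (a : MonoidAlgebra B G) (g h : G) :
    bl (rep φ a) g h = φ (a.coeff (g * h⁻¹)) := bl_repF φ a g h

theorem roeB_rep (a : MonoidAlgebra B G) (ha : ∀ s, IsCompactOperator (φ (a.coeff s))) :
    RoeB (rep φ a) where
  eqv g h s := by
    rw [bl_rep, bl_rep]
    congr 2
    group
  prop := ⟨a.coeff.support, fun g h hn => by
    rw [bl_rep, Finsupp.notMem_support_iff.1 hn, map_zero]⟩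
  cpt g h := by
    rw [bl_rep]
    exact ha _

theorem rep_idem {R : Matrix (Fin 2) (Fin 2) (MonoidAlgebra B G)}
    (h : (R + !![0, 0; 0, 1]) * (R + !![0, 0; 0, 1]) = R + !![0, 0; 0, 1]) :
    (R.map (rep φ) + !![0, 0; 0, 1]) * (R.map (rep φ) + !![0, 0; 0, 1]) =
      R.map (rep φ) + !![0, 0; 0, 1] := by
  have key : ∀ {C : Type} [Ring C] (M : Matrix (Fin 2) (Fin 2) C),
      (M + !![0, 0; 0, 1]) * (M + !![0, 0; 0, 1]) = M + !![0, 0; 0, 1] ↔
        M * M + !![0, M 0 1; M 1 0, M 1 1 + M 1 1] = M := by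
    intro C _ M
    have h1 : (M + !![0, 0; 0, 1]) * (M + !![0, 0; 0, 1]) =
        (M * M + !![0, M 0 1; M 1 0, M 1 1 + M 1 1]) + !![0, 0; 0, 1] := by
      ext i j
      fin_cases i <;> fin_cases j <;>
        simp [Matrix.mul_apply, Fin.sum_univ_two, add_mul, mul_add, add_assoc]
    rw [h1, add_left_inj]
  rw [key] at h ⊢
  have h2 := congrArg (fun M => M.map (rep φ)) h
  simp only [Matrix.map_add _ (map_add (rep φ)), Matrix.map_mul] at h2
  rw [← h2]
  congr 1
  · rw [h2]
  · rw [h2]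
    ext1 i j
    fin_cases i <;> fin_cases j <;> simp

end Tens

section Sum

variable {G H ι E : Type} [Group G] [NormedAddCommGroup H] [InnerProductSpace ℂ H]
  [CompleteSpace H] [NormedAddCommGroup E] [InnerProductSpace ℂ E] [CompleteSpace E]
  {c : HilbertBasis (G × ℕ) ℂ E} {d : HilbertBasis ι ℂ H} {u : ι ↪ ℕ}

theorem isSum_iff {a : MonoidAlgebra (H →L[ℂ] H) G} {A : E →L[ℂ] E} :
    IsSum c d u a A ↔ BC.frE c A = rep (cj d u) a := by
  constructor
  · rintro ⟨h1, h2⟩
    refine entx_ext ?_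
    rintro ⟨g, m⟩ ⟨h, n⟩
    rw [BC.ent_frE, ← ent_bl, bl_rep]
    by_cases hmn : m ∈ Set.range u ∧ n ∈ Set.range u
    · obtain ⟨⟨i, rfl⟩, ⟨j, rfl⟩⟩ := hmn
      rw [h1, ent_cj]
    · rw [h2 _ _ hmn, ent_cj_ne _ _ _ hmn]
  · intro h
    refine ⟨fun g h' i j => ?_, ?_⟩
    · rw [← BC.ent_frE, h, ← ent_bl, bl_rep, ent_cj]
    · rintro ⟨g, m⟩ ⟨h', n⟩ hmn
      rw [← BC.ent_frE, h, ← ent_bl, bl_rep, ent_cj_ne _ _ _ hmn]

theorem isRoe_of_frE {T : E →L[ℂ] E} (h : IsRoe (BC.frE c T)) : BC.IsRoe c T := by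
  classical
  refine ⟨fun g h' s m n => ?_, ?_, fun h' => ?_⟩
  · rw [← BC.ent_frE, ← BC.ent_frE]
    exact h.equivariant g h' s m n
  · obtain ⟨S, hS⟩ := h.propagation
    refine ⟨S, fun g h' m n => ?_⟩
    rw [← BC.ent_frE]
    exact hS g h' m n
  · obtain ⟨K, hK, hK'⟩ := h.compact h'
    refine ⟨(BC.frE c).symm K, ?_, fun n => ?_⟩
    · have h1 : IsCompactOperator ((K : L2 (G × ℕ) → L2 (G × ℕ)) ∘ (c.repr : E → L2 (G × ℕ))) :=
        hK.comp_clm (c.repr.toContinuousLinearEquiv : E →L[ℂ] L2 (G × ℕ))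
      exact h1.clm_comp (c.repr.symm.toContinuousLinearEquiv : L2 (G × ℕ) →L[ℂ] E)
    · apply c.repr.injective
      apply lp.ext
      funext j
      rw [c.repr_apply_apply, c.repr_apply_apply, ← BC.ent_frE, ← BC.ent_frE,
        StarAlgEquiv.apply_symm_apply, hK']

end Sum

end Vale.Agent.P089Z
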